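import Vale.Agent.P106.U.H404.Inst
import Vale.Agent.P106.U.H61.Mac
import Vale.Agent.P127.U.Mic.Colp

/-!
# P106 / U / H404 : activity (TEXT S1 (7)) (helper404)

* `Dd_sub` : increments of `Dd`;
* `XX_act` : one block, the gain from the inactive part;
* `XX_path` : a path of blocks;
* `PActX` : the statement; `pActX : PExtX → PWinX → PAbs → PActX`.
-/

set_option autoImplicit false

namespace Vale.Agent.P106.U

open Finset Vale.Agent.P127 Vale.Agent.P127.Stk Vale.Agent.P127.U Vale.Agent.P106.W Vale.Agent.P106.K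
open Vale.Agent.P127.U.Mic

/-- probability that the block `(a, a']` of digits of the time has conditional probability at least `2^(-v)` given the ray, the
past and `C` -/
noncomputable def inac {Ω : Type} [Fintype Ω] {γ : Type} (P : Law Ω) (l : Ω → Ry) (t : Ω → ℝ) (C : Ω → γ) (a a' : ℕ) (v : ℝ) : ℝ :=
  prE P (fun ω => (2 : ℝ) ^ (-v) ≤
    cq P (fun ω => fl1 a' (t ω)) (fun ω => (l ω, fl1 a (t ω), C ω)) (fl1 a' (t ω)) (l ω, fl1 a (t ω), C ω))

/-- **ACT** : `W` a label of level `h` of the deterministic shape `e0`, defect `μ` -/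
def PActX : Prop :=
  ∀ lam N k β β' ct : ℝ, 0 ≤ lam → lam ≤ 1 → 0 < k → 0 ≤ N → 0 ≤ β' → FIXA lam N (4 * k) β' →
    0 ≤ β' + N - 2 - 4 * k - N * ct →
    ∀ c : ℝ, 1 ≤ c → ∀ ε : ℝ, 0 < ε → ∃ K : ℝ, 0 ≤ K ∧ ∀ (μ : ℝ) (Ω : Type) [Fintype Ω] (γ : Type) (P : Law Ω) (l : Ω → Ry)
      (t : Ω → ℝ) (C : Ω → γ) (L h : ℕ) (e0 : ℕ × ℕ) (W : Ω → Cbx), SyOk P l t → h ≤ L →
      (∀ ω, 0 < P.w ω → LbOk c L h (W ω) (l ω) (t ω) ∧ (W ω).u2 = (1 / 2 : ℝ) ^ e0.1 ∧ (W ω).u1 = (1 / 2 : ℝ) ^ e0.2) →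
      XX c lam k 0 P l t C (fun _ => e0) L 0 + β * h * Real.log 2 + N * Dd P l t C h ≤ val lam P l t C h W + μ →
      ∀ m a0 n : ℕ, a0 + m * n ≤ h →
        (β' + N - 2 - 4 * k - N * ct) * (m * Real.log 2) *
            ∑ i ∈ range n, inac P l t C (a0 + m * i) (a0 + m * (i + 1)) (ct * m) ≤
          μ + (β' - β + ε) * h * Real.log 2 + K * (n + 1)

/-- **ACT**, one block, any target `e` of the shape -/
def PActBlk : Prop :=
  ∀ lam N k La β ct : ℝ, 0 ≤ lam → lam ≤ 1 → 0 < k → 0 ≤ N → N ≤ La → 0 ≤ β → FIXA lam N k β →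
    ∀ c : ℝ, 1 ≤ c → ∀ ε : ℝ, 0 < ε → ∃ K : ℝ, ∀ (Ω : Type) [Fintype Ω] (γ : Type) (P : Law Ω) (l : Ω → Ry)
      (t : Ω → ℝ) (C : Ω → γ) (e : Ω → ℕ × ℕ) (L a m : ℕ), a + m ≤ L → SyOk P l t →
      (β + N - 2 - k - N * ct) * (m * Real.log 2) * inac P l t C a (a + m) (ct * m) ≤
        XX c lam (k / 2) La P l t C e L a - XX c lam (k / 2) La P l t C e L (a + m) +
          (β + ε) * m * Real.log 2 + N * (Dd P l t C (a + m) - Dd P l t C a) + K

namespace H404

section finite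

variable {Ω : Type} [Fintype Ω] {γ : Type}

theorem fl1_le {m n : ℕ} (h : m ≤ n) {x y : ℝ} (hv : fl1 n x = fl1 n y) : fl1 m x = fl1 m y :=
  congrFun (fl_of_fl (ι := Unit) h (fun _ => x) (fun _ => y) (funext fun _ => hv)) ()

/-- increments of the deficit of the time -/
theorem Dd_sub (P : Law Ω) (l : Ω → Ry) (t : Ω → ℝ) (C : Ω → γ) {a a' : ℕ} (h : a ≤ a') :
    Dd P l t C a' - Dd P l t C a = ((a' : ℝ) - a) * Real.log 2 -
      Stk.hc P (fun ω => fl1 a' (t ω)) (fun ω => (l ω, fl1 a (t ω), C ω)) := by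
  have h1 := Stk.hc_pair P (fun ω => fl1 a (t ω)) (fun ω => fl1 a' (t ω)) (fun ω => (l ω, C ω))
  have h2 : Stk.hc P (fun ω => (fl1 a (t ω), fl1 a' (t ω))) (fun ω => (l ω, C ω)) =
      Stk.hc P (fun ω => fl1 a' (t ω)) (fun ω => (l ω, C ω)) :=
    Stk.hc_congr P (fun ω ω' _ _ e => by
        simp only [Prod.mk.injEq] at e ⊢
        exact ⟨fl1_le h e.1, e.1⟩)
      (fun _ _ _ _ e => by simp only [Prod.mk.injEq] at e; exact e.1.2) (fun _ _ _ _ e => e) (fun _ _ _ _ e => e)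
  have h3 : Stk.hc P (fun ω => fl1 a' (t ω)) (fun ω => (fl1 a (t ω), (l ω, C ω))) =
      Stk.hc P (fun ω => fl1 a' (t ω)) (fun ω => (l ω, fl1 a (t ω), C ω)) :=
    Stk.hc_congr P (fun _ _ _ _ e => congrArg Prod.fst e) (fun _ _ _ _ e => congrArg Prod.fst e)
      (fun _ _ _ _ e => by simp only [Prod.mk.injEq] at e ⊢; exact ⟨e.2.1, e.1, e.2.2⟩)
      (fun _ _ _ _ e => by simp only [Prod.mk.injEq] at e ⊢; exact ⟨e.2.1, e.1, e.2.2⟩)
  unfold Dd
  linarith

theorem prE_gs (P : Law Ω) {S T : Type*} (X : Ω → S) (Z : Ω → T) (v : ℝ) :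
    prE P (fun ω => (2 : ℝ) ^ (-v) ≤ cq P X Z (X ω) (Z ω)) =
      P.pr (Act.gs P X Z (v * Real.log 2)) false := by
  classical
  have e : ∀ ω, ((2 : ℝ) ^ (-v) ≤ cq P X Z (X ω) (Z ω)) ↔
      Act.gs P X Z (v * Real.log 2) ω = false := by
    intro ω
    rw [Act.gs_false, Real.rpow_def_of_pos (by norm_num : (0:ℝ) < 2),
      show Real.log 2 * -v = -(v * Real.log 2) by ring]
    exact Iff.rfl
  unfold prE Law.pr
  simp only [Finset.sum_filter]
  refine Finset.sum_congr rfl fun ω _ => ?_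
  by_cases h : Act.gs P X Z (v * Real.log 2) ω = false
  · rw [if_pos ((e ω).2 h), if_pos h]
  · rw [if_neg (fun h' => h ((e ω).1 h')), if_neg h]

theorem prE_le_prE (P : Law Ω) {A B : Ω → Prop} (h : ∀ ω, 0 < P.w ω → A ω → B ω) :
    prE P A ≤ prE P B := by
  classical
  unfold prE
  simp only [Finset.sum_filter]
  refine Finset.sum_le_sum fun ω _ => ?_
  by_cases hA : A ω
  · rw [if_pos hA]
    rcases (P.nn ω).eq_or_lt with h0 | h0
    · rw [← h0]
      split_ifs <;> exact le_rfl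
    · rw [if_pos (h ω h0 hA)]
  · rw [if_neg hA]
    split_ifs
    · exact P.nn ω
    · exact le_rfl

/-- the form with a strict inequality -/
theorem prE_lt_le (P : Law Ω) (l : Ω → Ry) (t : Ω → ℝ) (C : Ω → γ) (a a' : ℕ) (v : ℝ) :
    prE P (fun ω => (2 : ℝ) ^ (-v) <
      cq P (fun ω => fl1 a' (t ω)) (fun ω => (l ω, fl1 a (t ω), C ω)) (fl1 a' (t ω))
        (l ω, fl1 a (t ω), C ω)) ≤ inac P l t C a a' v :=
  prE_le_prE P fun _ _ h => h.le

theorem inac_nonneg (P : Law Ω) (l : Ω → Ry) (t : Ω → ℝ) (C : Ω → γ) (a a' : ℕ) (v : ℝ) :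
    0 ≤ inac P l t C a a' v := by
  unfold inac
  rw [prE_gs]
  exact P.pr_nonneg _ _

/-- the form used in `H61/KL` -/
theorem inac_eq (P : Law Ω) (l : Ω → Ry) (t : Ω → ℝ) (C : Ω → γ) (a a' : ℕ) (v : ℝ) :
    inac P l t C a a' v = P.pr (Act.gs P (fun ω => fl1 a' (t ω))
      (fun ω => (l ω, fl1 a (t ω), C ω)) (v * Real.log 2)) false := prE_gs P _ _ v

variable {c lam k La : ℝ} {L : ℕ} {P : Law Ω} {l : Ω → Ry} {t : Ω → ℝ} {e : Ω → ℕ × ℕ}

/-- **one block** : WIN for the active part, EXT for the inactive part -/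
theorem XX_act (hc : 0 ≤ c) (hk : 0 ≤ k) (hLa : 0 ≤ La) {a a' : ℕ} (h : a ≤ a') (ha' : a' ≤ L)
    (C : Ω → γ) {N b1 b2 K : ℝ} (hN : 0 ≤ N) (v : ℝ)
    (hW : ∀ g : Ω → Bool, ∀ z, 0 < P.pr g z → XX c lam k La (P.cond g z) l t C e L a' ≤
      XX c lam k La (P.cond g z) l t C e L a + b1 +
        N * (Dd (P.cond g z) l t C a' - Dd (P.cond g z) l t C a) + K)
    (hE : ∀ g : Ω → Bool, ∀ z, 0 < P.pr g z → XX c lam k La (P.cond g z) l t C e L a' ≤
      XX c lam k La (P.cond g z) l t C e L a + b2 + K) :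
    XX c lam k La P l t C e L a' + inac P l t C a a' v *
        (b1 - b2 + N * (((a' : ℝ) - a - v) * Real.log 2)) ≤
      XX c lam k La P l t C e L a + b1 + N * (Dd P l t C a' - Dd P l t C a) +
        (K + N * Real.log 2 + ((1 + La) * Real.log 2 + 1)) := by
  set X : Ω → ℤ := fun ω => fl1 a' (t ω) with hX
  set Z : Ω → Ry × ℤ × γ := fun ω => (l ω, fl1 a (t ω), C ω) with hZ
  set g := Act.gs P X Z (v * Real.log 2) with hg
  have hi : inac P l t C a a' v = P.pr g false := prE_gs P X Z v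
  have h1 := XX_event (lam := lam) (e := e) (P := P) (l := l) (t := t) hc hk hLa (h.trans ha') ha' C g
    (B1 := b1 + N * (Dd (P.cond g true) l t C a' - Dd (P.cond g true) l t C a) + K)
    (B2 := b2 + K)
    (fun h0 => by have := hW g true h0; linarith)
    (fun h0 => by have := hE g false h0; linarith)
  have h2 := Act.act_step P X Z (c := v * Real.log 2) (N := N)
    (B1 := b1 + K) (B2 := b2 + K) (S' := ((a' : ℝ) - a) * Real.log 2)
    (err := (1 + La) * Real.log 2 + 1)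
    (D := XX c lam k La P l t C e L a' - XX c lam k La P l t C e L a) hN (by
      rw [← hg]
      rw [Dd_sub (P.cond g true) l t C h] at h1
      nlinarith [h1])
  rw [← hg] at h2
  rw [hi, Dd_sub P l t C h]
  have e1 : (b1 + K + N * (((a' : ℝ) - a) * Real.log 2) - N * (v * Real.log 2) - (b2 + K)) =
      b1 - b2 + N * (((a' : ℝ) - a - v) * Real.log 2) := by ring
  rw [e1] at h2
  linarith

/-- **a path of blocks** -/
theorem XX_path (hc : 0 ≤ c) (hk : 0 ≤ k) (hLa : 0 ≤ La) (C : Ω → γ) {N r1 r2 K ct : ℝ}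
    (hN : 0 ≤ N) {m a0 n h : ℕ} (hh : a0 + m * n ≤ h) (hL : h ≤ L)
    (hW : ∀ (P' : Law Ω), (∀ ω, 0 < P'.w ω → 0 < P.w ω) → ∀ a w : ℕ, a + w ≤ L →
      XX c lam k La P' l t C e L (a + w) ≤ XX c lam k La P' l t C e L a + r1 * w * Real.log 2 +
        N * (Dd P' l t C (a + w) - Dd P' l t C a) + K)
    (hE : ∀ (P' : Law Ω), (∀ ω, 0 < P'.w ω → 0 < P.w ω) → ∀ a w : ℕ, a + w ≤ L →
      XX c lam k La P' l t C e L (a + w) ≤ XX c lam k La P' l t C e L a + r2 * w * Real.log 2 + K) :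
    XX c lam k La P l t C e L h + (r1 - r2 + N - N * ct) * (m * Real.log 2) *
        ∑ i ∈ range n, inac P l t C (a0 + m * i) (a0 + m * (i + 1)) (ct * m) ≤
      XX c lam k La P l t C e L 0 + r1 * h * Real.log 2 + N * (Dd P l t C h - Dd P l t C 0) +
        (K + N * Real.log 2 + ((1 + La) * Real.log 2 + 1)) * n + 2 * K := by
  have hself : ∀ ω, 0 < P.w ω → 0 < P.w ω := fun _ h => h
  have hstep : ∀ i, i < n → XX c lam k La P l t C e L (a0 + m * (i + 1)) +
      (r1 - r2 + N - N * ct) * (m * Real.log 2) *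
        inac P l t C (a0 + m * i) (a0 + m * (i + 1)) (ct * m) ≤
      XX c lam k La P l t C e L (a0 + m * i) + r1 * m * Real.log 2 +
        N * (Dd P l t C (a0 + m * (i + 1)) - Dd P l t C (a0 + m * i)) +
        (K + N * Real.log 2 + ((1 + La) * Real.log 2 + 1)) := by
    intro i hi
    have hle : a0 + m * (i + 1) ≤ L := by
      have : m * (i + 1) ≤ m * n := Nat.mul_le_mul_left m hi
      omega
    have e1 : a0 + m * (i + 1) = (a0 + m * i) + m := by ring
    have h1 := XX_act (lam := lam) (e := e) (P := P) (l := l) (t := t) (a := a0 + m * i)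
      (a' := a0 + m * (i + 1)) hc hk hLa (by rw [e1]; omega) hle C
      (N := N) (b1 := r1 * m * Real.log 2) (b2 := r2 * m * Real.log 2) (K := K) hN (ct * m)
      (fun g z _ => by
        rw [e1]
        exact hW (P.cond g z) (fun ω hω => JSB.cond_supp P g z hω) (a0 + m * i) m (by omega))
      (fun g z _ => by
        rw [e1]
        exact hE (P.cond g z) (fun ω hω => JSB.cond_supp P g z hω) (a0 + m * i) m (by omega))
    have e2 : inac P l t C (a0 + m * i) (a0 + m * (i + 1)) (ct * m) *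
        (r1 * m * Real.log 2 - r2 * m * Real.log 2 +
          N * ((((a0 + m * (i + 1) : ℕ) : ℝ) - ((a0 + m * i : ℕ) : ℝ) - ct * m) * Real.log 2)) =
        (r1 - r2 + N - N * ct) * (m * Real.log 2) *
          inac P l t C (a0 + m * i) (a0 + m * (i + 1)) (ct * m) := by
      push_cast
      ring
    rw [e2] at h1
    exact h1
  have hsum : ∀ j, j ≤ n → XX c lam k La P l t C e L (a0 + m * j) +
      (r1 - r2 + N - N * ct) * (m * Real.log 2) *
        ∑ i ∈ range j, inac P l t C (a0 + m * i) (a0 + m * (i + 1)) (ct * m) ≤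
      XX c lam k La P l t C e L a0 + r1 * (m * j) * Real.log 2 +
        N * (Dd P l t C (a0 + m * j) - Dd P l t C a0) +
        (K + N * Real.log 2 + ((1 + La) * Real.log 2 + 1)) * j := by
    intro j
    induction j with
    | zero => intro _; simp
    | succ j ih =>
      intro hj
      have h1 := ih (by omega)
      have h2 := hstep j (by omega)
      rw [Finset.sum_range_succ]
      push_cast
      linarith
  have h1 := hsum n le_rfl
  have h2 := hW P hself 0 a0 (by omega)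
  rw [zero_add] at h2
  obtain ⟨w, rfl⟩ := Nat.exists_eq_add_of_le hh
  have h3 := hW P hself (a0 + m * n) w (by omega)
  push_cast at h3 ⊢
  linarith

theorem Dd_zero_ge (P : Law Ω) (l : Ω → Ry) (t : Ω → ℝ) (C : Ω → γ)
    (h : ∀ ω, 0 < P.w ω → 0 ≤ t ω ∧ t ω ≤ 1) : -Real.log 2 ≤ Dd P l t C 0 := by
  have h1 : Stk.hc P (fun ω => fl1 0 (t ω)) (fun ω => (l ω, C ω)) ≤ Real.log 2 := by
    refine (hc_le_H _ _ _).trans ?_
    have h2 := U.H_le_log_finset P (fun ω => fl1 0 (t ω)) 2 ({0, 1} : Finset ℤ) (by decide) ?_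
    · simpa using h2
    · intro ω hω
      obtain ⟨h3, h4⟩ := h ω hω
      have e : fl1 0 (t ω) = ⌊t ω⌋ := by
        unfold fl1
        rw [pow_zero, one_mul]
      rw [e]
      have h5 : 0 ≤ ⌊t ω⌋ := Int.floor_nonneg.2 h3
      have h6 : ⌊t ω⌋ ≤ 1 := by
        have h7 : (⌊t ω⌋ : ℝ) ≤ t ω := Int.floor_le _
        exact_mod_cast (h7.trans h4)
      have h7 : ⌊t ω⌋ = 0 ∨ ⌊t ω⌋ = 1 := by omega
      rcases h7 with h7 | h7 <;> simp [h7]
  unfold Dd
  push_cast
  linarith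

/-- a label of the shape `e0` is a lower bound for `XX` without penalty -/
theorem val_le_XX (hc : 0 ≤ c) (hk : 0 ≤ k) (hLa : 0 ≤ La) {h : ℕ} (hh : h ≤ L) {C : Ω → γ}
    {e0 : ℕ × ℕ} {W : Ω → Cbx}
    (hW : ∀ ω, 0 < P.w ω → LbOk c L h (W ω) (l ω) (t ω) ∧ (W ω).u2 = (1 / 2 : ℝ) ^ e0.1 ∧
      (W ω).u1 = (1 / 2 : ℝ) ^ e0.2) :
    val lam P l t C h W ≤ XX c lam k La P l t C (fun _ => e0) L h := by
  have h1 := le_XX (c := c) (lam := lam) (k := k) (La := La) (P := P) (l := l) (t := t)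
    (e := fun _ => e0) hc hk hLa hh (C := C) (P' := P) (π := fun ω => ω) (W := W) (pr_id' P)
    fun ω hω => (hW ω hω).1
  refine le_trans ?_ h1
  unfold valX
  have h2 : P.ex (fun ω => dsh (W ω) e0) = 0 := by
    have h3 : P.ex (fun ω => dsh (W ω) e0) = P.ex (fun _ => (0:ℝ)) := by
      refine P.ex_congr fun ω hω => ?_
      obtain ⟨-, h4, h5⟩ := hW ω hω
      unfold dsh
      rw [h4, h5, one_div, inv_pow, inv_pow, Real.log_inv, Real.log_inv, Real.log_pow, Real.log_pow,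
        neg_add_cancel, neg_add_cancel, abs_zero, add_zero]
    rw [h3, P.ex_const]
  have h3 := mul_nonneg hLa (Stk.hc_nonneg P (fun ω => shp (W ω)) (fun ω => (l ω, fl1 h (t ω), C ω)))
  show val lam P l t C h W ≤ val lam P l t C h W - k * P.ex (fun ω => dsh (W ω) e0) +
    La * Stk.hc P (fun ω => shp (W ω)) (fun ω => (l ω, fl1 h (t ω), C ω))
  rw [h2]
  linarith

end finite

/-- **ACT**, one block, from EXT and WIN -/
theorem pActBlk (hE : PExtX) (hW : PWinX) : PActBlk := by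
  intro lam N k La β ct hl0 hl1 hk hN hNL hβ hF c hc ε hε
  obtain ⟨K1, hK1, h1⟩ := hE c lam hc hl0 hl1
  obtain ⟨K2, h2⟩ := hW lam N k La β hl0 hl1 hk hN hNL hβ hF c hc ε hε
  have hc0 : 0 ≤ c := by linarith
  have hLa : 0 ≤ La := hN.trans hNL
  have hl2 : 0 ≤ Real.log 2 := Real.log_nonneg (by norm_num)
  set Kc : ℝ := |K2| + (1 + La + k / 2) * K1 with hKc
  refine ⟨Kc + N * Real.log 2 + ((1 + La) * Real.log 2 + 1), ?_⟩
  intro Ω _ γ P l t C e L a m ham hS
  have hS' : ∀ (P' : Law Ω), (∀ ω, 0 < P'.w ω → 0 < P.w ω) → SyOk P' l t :=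
    fun P' hP ω hω => hS ω (hP ω hω)
  have g := XX_act (c := c) (lam := lam) (k := k / 2) (La := La) (L := L) (P := P) (l := l) (t := t)
    (e := e) (a := a) (a' := a + m) hc0 (by positivity) hLa (by omega) ham C (N := N)
    (b1 := (β + ε) * m * Real.log 2) (b2 := (2 + 2 * (k / 2)) * m * Real.log 2) (K := Kc) hN (ct * m)
    (fun g z _ => by
      have g := h2 Ω γ (P.cond g z) l t C e L a m ham (hS' _ fun ω hω => JSB.cond_supp P g z hω)
      have := le_abs_self K2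
      have : 0 ≤ (1 + La + k / 2) * K1 := by positivity
      linarith)
    (fun g z _ => by
      have g := h1 Ω γ (P.cond g z) l t C e L a m (k / 2) La (by positivity) hLa ham
        (hS' _ fun ω hω => JSB.cond_supp P g z hω)
      have := abs_nonneg K2
      linarith)
  have h3 : (β + N - 2 - k - N * ct) * (m * Real.log 2) * inac P l t C a (a + m) (ct * m) ≤
      inac P l t C a (a + m) (ct * m) * ((β + ε) * m * Real.log 2 -
        (2 + 2 * (k / 2)) * m * Real.log 2 +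
          N * ((((a + m : ℕ) : ℝ) - (a : ℝ) - ct * m) * Real.log 2)) := by
    have h4 : 0 ≤ ε * (m * Real.log 2) * inac P l t C a (a + m) (ct * m) :=
      mul_nonneg (by positivity) (inac_nonneg P l t C a (a + m) (ct * m))
    push_cast
    nlinarith [h4]
  linarith

/-- **ACT** from EXT, WIN and the absorption of the reward -/
theorem pActX (hE : PExtX) (hW : PWinX) (hA : PAbs) : PActX := by
  intro lam N k β β' ct hl0 hl1 hk hN hβ' hF hκ c hc ε hε
  obtain ⟨K1, hK1, h1⟩ := hE c lam hc hl0 hl1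
  obtain ⟨K2, h2⟩ := hW lam N (4 * k) N β' hl0 hl1 (by positivity) hN le_rfl hβ' hF c hc ε hε
  obtain ⟨K3, h3⟩ := hA c lam (2 * k) N hc hl0 hl1 (by positivity) hN
  have hc0 : 0 ≤ c := by linarith
  have hl2 : 0 ≤ Real.log 2 := Real.log_nonneg (by norm_num)
  rw [show 4 * k / 2 = 2 * k by ring] at h2
  rw [show 2 * k / 2 = k by ring] at h3
  set Kc : ℝ := |K2| + (1 + N + 2 * k) * K1 with hKc
  have hKc0 : 0 ≤ Kc := by positivity
  set K5 : ℝ := Kc + N * Real.log 2 + ((1 + N) * Real.log 2 + 1) with hK5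
  have hK50 : 0 ≤ K5 := by positivity
  refine ⟨K5 + 2 * Kc + N * Real.log 2 + |K3|, by positivity, ?_⟩
  intro μ Ω _ γ P l t C L h e0 W hS hL hlb hex m a0 n hmn
  have hS' : ∀ (P' : Law Ω), (∀ ω, 0 < P'.w ω → 0 < P.w ω) → SyOk P' l t :=
    fun P' hP ω hω => hS ω (hP ω hω)
  have g1 := XX_path (c := c) (lam := lam) (k := 2 * k) (La := N) (L := L) (P := P) (l := l) (t := t)
    (e := fun _ => e0) hc0 (by positivity) hN C (N := N) (r1 := β' + ε) (r2 := 2 + 2 * (2 * k))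
    (K := Kc) (ct := ct) hN hmn hL
    (fun P' hP a w haw => by
      have g := h2 Ω γ P' l t C (fun _ => e0) L a w haw (hS' P' hP)
      have := le_abs_self K2
      have : 0 ≤ (1 + N + 2 * k) * K1 := by positivity
      linarith)
    (fun P' hP a w haw => by
      have g := h1 Ω γ P' l t C (fun _ => e0) L a w (2 * k) N (by positivity) hN haw (hS' P' hP)
      have := abs_nonneg K2
      linarith)
  have g2 := val_le_XX (lam := lam) (C := C) hc0 (show 0 ≤ 2 * k by positivity) hN hL hlb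
  have g3 := h3 Ω γ P l t C e0 L 0 (Nat.zero_le _) hS
  have g4 := Dd_zero_ge P l t C fun ω hω => (hS ω hω).2
  set Sg := ∑ i ∈ range n, inac P l t C (a0 + m * i) (a0 + m * (i + 1)) (ct * m) with hSg
  have hSg0 : 0 ≤ Sg := by
    refine Finset.sum_nonneg fun i _ => ?_
    unfold inac
    rw [prE_gs]
    exact P.pr_nonneg _ _
  have g5 : (β' + N - 2 - 4 * k - N * ct) * (m * Real.log 2) * Sg ≤
      (β' + ε - (2 + 2 * (2 * k)) + N - N * ct) * (m * Real.log 2) * Sg := by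
    have : 0 ≤ ε * (m * Real.log 2) * Sg := by positivity
    nlinarith [this]
  have g6 := mul_le_mul_of_nonneg_left g4 hN
  have g7 := le_abs_self K3
  have g8 : 0 ≤ (2 * Kc + N * Real.log 2 + |K3|) * n := by positivity
  have g9 : (K5 + 2 * Kc + N * Real.log 2 + |K3|) * (n + 1) =
      K5 * n + K5 + (2 * Kc + N * Real.log 2 + |K3|) * n + (2 * Kc + N * Real.log 2 + |K3|) := by ring
  rw [g9]
  have g10 : (β' - β + ε) * h * Real.log 2 = (β' + ε) * h * Real.log 2 - β * h * Real.log 2 := by ring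
  rw [g10]
  linarith

end H404

end Vale.Agent.P106.U
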