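import Vale.Agent.P106.U.MIC.Rows
import Vale.Agent.P106.U.H931.Sd

/-!
# P106 / U / H404 : [WORD], the word of the compressed path from the first good state on (helper404)

* `wordG` : `MIC.WordOk` for any predicate `G` on the indices of the record with few exceptional time steps.
* `card_badG`, `wordE` : `G = Run.Good p eg (bc R)`, exceptional steps by `pGood`, with the inequality of the numbers as hypothesis.
* `word` : accuracy `ε`; error `2 ε`.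
* `word_low` : the same predicate for every margin, offsets and cap (101's `good_low`).
-/

set_option autoImplicit false

namespace Vale.Agent.P106.U.H404

open Finset Vale.Agent.P127 Vale.Agent.P127.Stk Vale.Agent.P127.U Vale.Agent.P106.W Vale.Agent.P106.K
open Vale.Agent.P106.U.S3 (Run)
open Vale.Agent.P106.U.S5
open Vale.Agent.P106.U.MIC
open Vale.Agent.P106.U.H833 (aN RN fN kN lev_a lev_R lev_f aN_mono RN_mono)
open Vale.Agent.P106.U.H118 (Sdat)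
open Vale.Agent.P106.U.H931 (exists_start Esf card_Esf Esf_spec)
open Vale.Agent.P106.U.H823

theorem WordOk.mono {K e1 e1' h mm : ℝ} {J0 n : ℕ} {gd : ℕ → Prop} {a r : ℕ → ℕ} {E : Finset ℕ}
    (H : WordOk K e1 h mm J0 n gd a r E) (he : e1 * h ≤ e1' * h) : WordOk K e1' h mm J0 n gd a r E :=
  { H with cE := H.cE.trans he }

section

variable {Ω : Type} [Fintype Ω] {τ υ : Type} {R : Run Ω τ υ} {p : Run.Num}

theorem aN_idx_zero (hP : R.Path p) (x : ℕ) : aN R (Cmp.idx R x 0) = 0 := by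
  have h1 := Cmp.sum_lev (x := x) hP (Nat.zero_le _)
  have h2 := Cmp.idx_le (R := R) (x := x) 0
  have h3 := RN_mono hP x (Nat.zero_le (Cmp.idx R x 0)) (by omega)
  omega

open Classical in
/-- the states of the compressed path in `E` -/
noncomputable def Ec (R : Run Ω τ υ) (x : ℕ) (E : Finset ℕ) : Finset ℕ :=
  (range (Cmp.Nc R x)).filter fun j => Cmp.idx R x j ∈ E

theorem card_Ec (hP : R.Path p) (x : ℕ) (E : Finset ℕ) : (Ec R x E).card ≤ E.card := by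
  classical
  refine Finset.card_le_card_of_injOn (fun j => Cmp.idx R x j) ?_ ?_
  · intro j hj
    exact (Finset.mem_filter.1 (Finset.mem_coe.1 hj)).2
  · intro i hi j hj e
    have h1 := Finset.mem_range.1 (Finset.mem_filter.1 (Finset.mem_coe.1 hi)).1
    have h2 := Finset.mem_range.1 (Finset.mem_filter.1 (Finset.mem_coe.1 hj)).1
    simp only at e
    rcases lt_trichotomy i j with h | h | h
    · have := Cmp.idx_strict hP h h1
      omega
    · exact h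
    · have := Cmp.idx_strict hP h h2
      omega

end

section

variable {σ : Cst} {ε : ℝ} {ρ : Thr} {m B : ℕ} {Ω : Type} [Fintype Ω] {Q : Law Ω} {l : Ω → Ry} {t : Ω → ℝ}
  {L h q r0 Rn : ℕ} {W : Ω → Cbx} {τ υ : Type} {R : Run Ω τ υ} {p : Run.Num} {g' gU e κ₀ : ℝ} {a1 r1 : ℕ}

/-- **[WORD]**, any predicate with few exceptional time steps -/
theorem wordG (hσ : σ.Ok) (H : RunOk σ ε ρ m B Q l t L h q r0 Rn W R p g' gU e κ₀ a1 r1) (hh : 1 ≤ h) (G : ℕ → Prop)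
    (hGA : ∀ i < R.n, G i → R.IsA i) (E : Finset ℕ) (hE : ∀ i < R.n, R.IsA i → ¬ G i → i ∈ E) {e1 : ℝ}
    (he : e1 ≤ 1 / 2) (hc : (m : ℝ) * E.card ≤ e1 * h) :
    ∃ (i0 : ℕ) (E' : Finset ℕ), ((R.C.a (ix R i0 0) : ℕ) : ℝ) ≤ e1 * h ∧ i0 ≤ Cmp.Nc R R.b1 ∧
      WordOk (2 * σ.K1 + 4) e1 h (m * Real.log 2) ρ.J (nz R i0) (fun j => G (ix R i0 j)) (az R i0) (rz R i0) E' := by
  classical
  have hP := H.ok.pth
  have hm := H.hm
  have hm1 : 1 ≤ m := hm ▸ hP.m1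
  have hmR : (1 : ℝ) ≤ m := by exact_mod_cast hm1
  have hhR : (1 : ℝ) ≤ h := by exact_mod_cast hh
  have hJ := hP.J1
  have hx : R.m * R.b1 ≤ p.B₁ := (Nat.mul_le_mul_left _ (Nat.le_add_right _ _)).trans H.cap.top
  have l0 : 0 ≤ Real.log 2 := Real.log_nonneg (by norm_num)
  have l2 : Real.log 2 ≤ 1 := by
    have := Real.log_two_lt_d9
    linarith
  have hK1 : 0 < σ.K1 := hσ.bs.K10
  have D0 : Sdat (Cmp.Nc R R.b1) (fun j => G (Cmp.idx R R.b1 j)) (fun j => aN R (Cmp.idx R R.b1 j))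
      (fun j => RN R R.b1 (Cmp.idx R R.b1 j)) :=
    Cmp.sdatC hP _ fun j hj hg => hGA _ (Cmp.idx_lt hP hj) hg
  -- the exceptional states
  have hE0 : ∀ i < Cmp.Nc R R.b1, aN R (Cmp.idx R R.b1 (i + 1)) = aN R (Cmp.idx R R.b1 i) + 1 →
      ¬ G (Cmp.idx R R.b1 i) → i ∈ Ec R R.b1 E := by
    intro i hi h1 h2
    refine Finset.mem_filter.2 ⟨Finset.mem_range.2 hi, ?_⟩
    refine hE _ (Cmp.idx_lt hP hi) ?_ h2
    rcases Cmp.step2 (x := R.b1) hP hi with ⟨h3, _⟩ | ⟨_, h3, _⟩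
    · exact h3
    · omega
  have hcE := card_Ec hP R.b1 E
  have hcE' : (m : ℝ) * (Ec R R.b1 E).card ≤ e1 * h :=
    (mul_le_mul_of_nonneg_left (by exact_mod_cast hcE) (by linarith)).trans hc
  have hatop : R.C.a R.n = m * aN R R.n := by rw [lev_a hP (by omega), hm]
  have hex := H.ex
  rw [hatop] at hex
  push_cast at hex
  have hθ := hσ.θ4
  have hstart : aN R (Cmp.idx R R.b1 0) + (Ec R R.b1 E).card < aN R (Cmp.idx R R.b1 (Cmp.Nc R R.b1)) := by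
    rw [aN_idx_zero hP, Cmp.idx_top, Nat.zero_add]
    have h1 : (m : ℝ) * (Ec R R.b1 E).card < m * aN R R.n := by
      have : e1 * h < (1 - σ.θ) * h := mul_lt_mul_of_pos_right (by linarith) (by linarith)
      linarith
    have h2 := lt_of_mul_lt_mul_left h1 (by linarith : (0 : ℝ) ≤ m)
    exact_mod_cast h2
  obtain ⟨i0, hi0, hg0, _, ha0⟩ := exists_start D0 hE0 hstart
  have haz : aN R (Cmp.idx R R.b1 i0) ≤ (Ec R R.b1 E).card := by
    have := aN_idx_zero hP R.b1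
    omega
  have hin : ∀ j, Cmp.idx R R.b1 j ≤ R.n := fun j => Cmp.idx_le j
  -- the levels
  have hRN : ∀ i ≤ R.n, (m : ℝ) * RN R R.b1 i ≤ (σ.K1 + 1) * h := by
    intro i hi
    have h1 := lev_R hP R.b1 (i := i) (by omega)
    have h2 := R.C.R_le_rf i (R.m * R.b1)
    have h2' : R.r0 + R.m * RN R R.b1 i ≤ R.C.rf i := by
      have h5 := lev_f hP (i := i) (by omega)
      have h6 : RN R R.b1 i ≤ fN R i := min_le_right _ _
      have h7 := Nat.mul_le_mul_left R.m h6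
      omega
    have h3 := hP.leF i (by omega)
    have h4 := hP.rF
    have h5 : R.r0 + R.m * RN R R.b1 i ≤ R.q := by omega
    rw [H.hr0, hm, H.hq] at h5
    have h6 : (r0 : ℝ) + m * RN R R.b1 i ≤ q := by exact_mod_cast h5
    have h7 := H.qr
    linarith
  have haN : (m : ℝ) * aN R R.n ≤ h := by
    have h1 : R.C.a R.n ≤ h := by
      rw [← H.hh]
      exact (R.C.ha (Nat.le_add_right _ _)).trans hP.rA
    rw [hatop] at h1
    exact_mod_cast h1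
  refine ⟨i0, Esf (Cmp.Nc R R.b1) i0 (Ec R R.b1 E), ?_, hi0.le, ?_⟩
  · have h1 : R.C.a (ix R i0 0) = m * aN R (Cmp.idx R R.b1 i0) := by
      show R.C.a (Cmp.idx R R.b1 (i0 + 0)) = _
      rw [Nat.add_zero, lev_a hP (by have := hin i0; omega), hm]
    rw [h1]
    push_cast
    refine le_trans (mul_le_mul_of_nonneg_left ?_ (by linarith)) hcE'
    exact_mod_cast haz
  · refine ⟨?_, ?_, ?_, ?_, ?_, ?_, ?_, ?_⟩
    · show 0 < Cmp.Nc R R.b1 - i0
      omega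
    · exact Vale.Agent.P106.U.H931.Sdat.sft D0 i0
    · show G (Cmp.idx R R.b1 (i0 + 0))
      exact hg0
    · intro j hj
      have h1 : j + ρ.J ≤ Cmp.Nc R R.b1 - i0 := hj
      have h2 := Cmp.hF hP hx (i0 + j) (by rw [H.hJ]; omega)
      rw [H.hJ, Nat.add_assoc] at h2
      exact h2
    · have h1 : ((nz R i0 : ℕ) : ℝ) ≤ aN R R.n + RN R R.b1 R.n := by
        have h2 : Cmp.Nc R R.b1 ≤ aN R R.n + RN R R.b1 R.n := by
          show aN R R.n + (RN R R.b1 R.n - RN R R.b1 0) ≤ _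
          omega
        have h3 : nz R i0 ≤ Cmp.Nc R R.b1 := Nat.sub_le _ _
        exact_mod_cast h3.trans h2
      have h2 := hRN R.n le_rfl
      calc (m : ℝ) * Real.log 2 * nz R i0 ≤ m * Real.log 2 * (aN R R.n + RN R R.b1 R.n) :=
            mul_le_mul_of_nonneg_left h1 (mul_nonneg (by linarith) l0)
        _ = (m * aN R R.n + m * RN R R.b1 R.n) * Real.log 2 := by ring
        _ ≤ (m * aN R R.n + m * RN R R.b1 R.n) * 1 := mul_le_mul_of_nonneg_left l2 (by positivity)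
        _ ≤ (2 * σ.K1 + 4) * h := by nlinarith
    · have h1 : ((rz R i0 (nz R i0) : ℕ) : ℝ) - rz R i0 0 ≤ RN R R.b1 (Cmp.idx R R.b1 (i0 + nz R i0)) := by
        have : (0 : ℝ) ≤ rz R i0 0 := Nat.cast_nonneg _
        have e : rz R i0 (nz R i0) = RN R R.b1 (Cmp.idx R R.b1 (i0 + nz R i0)) := rfl
        rw [e]
        linarith
      have h2 := hRN _ (hin (i0 + nz R i0))
      calc (m : ℝ) * Real.log 2 * (((rz R i0 (nz R i0) : ℕ) : ℝ) - rz R i0 0) ≤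
            m * Real.log 2 * RN R R.b1 (Cmp.idx R R.b1 (i0 + nz R i0)) :=
            mul_le_mul_of_nonneg_left h1 (mul_nonneg (by linarith) l0)
        _ = (m * RN R R.b1 (Cmp.idx R R.b1 (i0 + nz R i0))) * Real.log 2 := by ring
        _ ≤ (m * RN R R.b1 (Cmp.idx R R.b1 (i0 + nz R i0))) * 1 := mul_le_mul_of_nonneg_left l2 (by positivity)
        _ ≤ (2 * σ.K1 + 4) * h := by nlinarith
    · exact Esf_spec (n := Cmp.Nc R R.b1) (g := fun j => G (Cmp.idx R R.b1 j)) (a := fun j => aN R (Cmp.idx R R.b1 j))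
        hE0 i0
    · have h1 : ((Esf (Cmp.Nc R R.b1) i0 (Ec R R.b1 E)).card : ℝ) ≤ (Ec R R.b1 E).card := by
        exact_mod_cast card_Esf _ _ _
      have h2 : (0 : ℝ) ≤ (Esf (Cmp.Nc R R.b1) i0 (Ec R R.b1 E)).card := Nat.cast_nonneg _
      calc (m : ℝ) * Real.log 2 * (Esf (Cmp.Nc R R.b1) i0 (Ec R R.b1 E)).card =
            m * (Esf (Cmp.Nc R R.b1) i0 (Ec R R.b1 E)).card * Real.log 2 := by ring
        _ ≤ m * (Esf (Cmp.Nc R R.b1) i0 (Ec R R.b1 E)).card * 1 := mul_le_mul_of_nonneg_left l2 (by positivity)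
        _ ≤ m * (Ec R R.b1 E).card := by
          rw [mul_one]
          exact mul_le_mul_of_nonneg_left h1 (by linarith)
        _ ≤ e1 * h := hcE'

/-- the number of exceptional time steps, accuracy `eg` -/
theorem card_badG (H : RunOk σ ε ρ m B Q l t L h q r0 Rn W R p g' gU e κ₀ a1 r1) {eg e1 : ℝ} (heg : 0 < eg)
    (hn : (m : ℝ) * (3 * e + κ₀ * ((4 * p.J + 1) * g')) ≤ eg * (e1 * h)) (b : ℕ) :
    (m : ℝ) * (R.bad p eg b).card ≤ e1 * h := by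
  have h1 := S3.pGood R p ρ.K ρ.c' g' gU e κ₀ eg H.ok H.light heg H.κ0 b
  have h2 := mul_le_mul_of_nonneg_left h1 (Nat.cast_nonneg (α := ℝ) m)
  have h7 : (m : ℝ) * (R.bad p eg b).card * eg ≤ e1 * h * eg := by nlinarith
  exact le_of_mul_le_mul_right h7 heg

/-- **[WORD]**, accuracy `eg` -/
theorem wordE (hσ : σ.Ok) (H : RunOk σ ε ρ m B Q l t L h q r0 Rn W R p g' gU e κ₀ a1 r1) (hh : 1 ≤ h) {eg e1 : ℝ}
    (heg : 0 < eg) (he : e1 ≤ 1 / 2) (hn : (m : ℝ) * (3 * e + κ₀ * ((4 * p.J + 1) * g')) ≤ eg * (e1 * h)) :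
    ∃ (i0 : ℕ) (E : Finset ℕ), ((R.C.a (ix R i0 0) : ℕ) : ℝ) ≤ e1 * h ∧ i0 ≤ Cmp.Nc R R.b1 ∧
      WordOk (2 * σ.K1 + 4) e1 h (m * Real.log 2) ρ.J (nz R i0) (gdR R p eg i0) (az R i0) (rz R i0) E := by
  classical
  refine wordG hσ H hh (fun i => R.Good p eg (bc R) i) (fun i _ hg => hg.isA) (R.bad p eg (bc R)) ?_ he
    (card_badG H heg hn (bc R))
  intro i hi hA hg
  exact Finset.mem_filter.2 ⟨Finset.mem_filter.2 ⟨Finset.mem_range.2 hi, hA⟩, hg⟩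

/-- the two numbers of the record -/
theorem num_bad (hσ : σ.Ok) (hρ : ρ.Ok) (H : RunOk σ ε ρ m B Q l t L h q r0 Rn W R p g' gU e κ₀ a1 r1) :
    (m : ℝ) * (3 * e + κ₀ * ((4 * p.J + 1) * g')) ≤ ε ^ 2 * ρ.c' * h / ρ.K ^ 8 := by
  have hP := H.ok.pth
  have hm1 : 1 ≤ m := H.hm ▸ hP.m1
  have hmR : (1 : ℝ) ≤ m := by exact_mod_cast hm1
  have hm0 : (0 : ℝ) < m := by linarith
  have hh0 : (0 : ℝ) ≤ h := Nat.cast_nonneg _
  have hδ : σ.δ1 ≤ 1 := by
    have h4 := hσ.δθ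
    have h5 := hσ.θ4
    linarith
  have hδ0 := hσ.δ0
  have hc0 := hρ.c'0
  have hK1 := hρ.K1
  have hK8 : (0 : ℝ) < ρ.K ^ 8 := by positivity
  have hX : 0 ≤ ε ^ 2 * ρ.c' * h / ρ.K ^ 8 := by positivity
  have hY : (m : ℝ) * (ε ^ 2 * ρ.c' * σ.δ1 * h / (1000 * ρ.K ^ 8 * m)) =
      (σ.δ1 / 1000) * (ε ^ 2 * ρ.c' * h / ρ.K ^ 8) := by
    field_simp
  have h2 := mul_le_mul_of_nonneg_left H.le hm0.le
  have h3 := mul_le_mul_of_nonneg_left H.lg hm0.le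
  rw [hY] at h2 h3
  have h4 : (σ.δ1 / 1000) * (ε ^ 2 * ρ.c' * h / ρ.K ^ 8) ≤ (1 / 1000) * (ε ^ 2 * ρ.c' * h / ρ.K ^ 8) :=
    mul_le_mul_of_nonneg_right (by linarith) hX
  linarith

/-- the number of exceptional time steps -/
theorem card_bad (hσ : σ.Ok) (hρ : ρ.Ok) (hε : 0 < ε)
    (H : RunOk σ ε ρ m B Q l t L h q r0 Rn W R p g' gU e κ₀ a1 r1) (b : ℕ) :
    (m : ℝ) * (R.bad p ε b).card ≤ 2 * ε * h := by
  refine card_badG H hε ((num_bad hσ hρ H).trans ?_) b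
  have hc0 := hρ.c'0
  have hc1 := hρ.c'1
  have hK1 := hρ.K1
  have hK8 : (1 : ℝ) ≤ ρ.K ^ 8 := one_le_pow₀ hK1
  have hh0 : (0 : ℝ) ≤ h := Nat.cast_nonneg _
  rw [div_le_iff₀ (by linarith)]
  have h1 : ε ^ 2 * ρ.c' * h ≤ ε ^ 2 * 1 * h := by
    have : ρ.c' ≤ 1 := by linarith
    gcongr
  have h2 : 0 ≤ ε ^ 2 * h := by positivity
  have h3 : ε ^ 2 * h * 1 ≤ ε ^ 2 * h * ρ.K ^ 8 := mul_le_mul_of_nonneg_left hK8 h2
  nlinarith

/-- **[WORD]**, accuracy `ε` -/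
theorem word (hσ : σ.Ok) (hρ : ρ.Ok) (hε : 0 < ε) (hε1 : ε ≤ 1 / 4)
    (H : RunOk σ ε ρ m B Q l t L h q r0 Rn W R p g' gU e κ₀ a1 r1) (hh : 1 ≤ h) :
    ∃ (i0 : ℕ) (E : Finset ℕ), ((R.C.a (ix R i0 0) : ℕ) : ℝ) ≤ 2 * ε * h ∧ i0 ≤ Cmp.Nc R R.b1 ∧
      WordOk (2 * σ.K1 + 4) (2 * ε) h (m * Real.log 2) ρ.J (nz R i0) (fun j => R.Good p ε (bc R) (ix R i0 j))
        (az R i0) (rz R i0) E := by
  classical
  refine wordG hσ H hh (fun i => R.Good p ε (bc R) i) (fun i _ hg => hg.isA) (R.bad p ε (bc R)) ?_ (by linarith)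
    (card_bad hσ hρ hε H (bc R))
  intro i hi hA hg
  exact Finset.mem_filter.2 ⟨Finset.mem_filter.2 ⟨Finset.mem_range.2 hi, hA⟩, hg⟩

/-- the predicate of `word` for every margin, offsets and cap -/
theorem word_low (H : RunOk σ ε ρ m B Q l t L h q r0 Rn W R p g' gU e κ₀ a1 r1) {μ : ℕ} (hμ : μ ≤ R.C.μ)
    (o : Fin 7 → ℝ) (b : ℕ) (i0 j : ℕ) :
    (H101.low R μ o).Good p ε b (ix R i0 j) ↔ R.Good p ε (bc R) (ix R i0 j) :=
  H101.good_low H.ok hμ o b (bc R) ((Cmp.idx_le (R := R) (x := R.b1) (i0 + j)).trans (Nat.le_add_right _ _))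

end

/-- **[WORD]** in the form of `MIC.PWord` -/
theorem pWord : PWord := by
  intro b hb η hη
  refine ⟨1, one_pos, fun θ hθ _ => ⟨1, one_pos, fun δ1 hδ1 _ σ hσe hσ => ?_⟩⟩
  refine ⟨min (1 / 40) (η / 800), by positivity, fun ε hε hε1 ρ hρ g _ => ?_⟩
  refine ⟨0, fun m _ => ⟨0, fun B _ => ⟨1, ?_⟩⟩⟩
  intro Ω _ Q l t L h q r0 Rn W hh _ τ υ R pn g' gU e κ₀ a1 r1 H
  have hε2 : ε ≤ 1 / 40 := hε1.trans (min_le_left _ _)
  have hε3 : ε ≤ η / 800 := hε1.trans (min_le_right _ _)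
  have hc0 := hρ.c'0
  have hK1 := hρ.K1
  have hh0 : (0 : ℝ) ≤ h := Nat.cast_nonneg _
  have heg : 0 < eG ε ρ := by
    unfold eG
    positivity
  obtain ⟨i0, E, h1, h2, h3⟩ := wordE hσ H hh heg (e1 := 20 * ε) (by linarith) ((num_bad hσ hρ H).trans (by
    unfold eG
    have h4 : ε * ρ.c' / ρ.K ^ 8 * (20 * ε * h) = 20 * (ε ^ 2 * ρ.c' * h / ρ.K ^ 8) := by ring
    rw [h4]
    have h5 : 0 ≤ ε ^ 2 * ρ.c' * h / ρ.K ^ 8 := by positivity
    linarith))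
  refine ⟨i0, E, h1.trans (mul_le_mul_of_nonneg_right (by linarith) hh0), h2, ?_⟩
  have h6 : σ.K1 = b.K1 := by rw [hσe]
  rw [h6] at h3
  exact h3

end Vale.Agent.P106.U.H404
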