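import Vale.Agent.P106.U.H336.Sw
import Vale.Agent.P106.U.H404.Word
import Vale.Agent.P106.U.H495.WndV

/-!
# P106 / U / H404 : the three kinds of levels (helper404), over helper336's exceptional levels

* `kd3 R Vs Xs z : Fin 3` : `1` young kappa, `2` young deep phi, `0` otherwise (and at the bad levels).
* `kd3_sw` : a change of the kind is an exceptional level (`SwL L`, `L ≥ 0`; one level ahead).
* `kd3_kd` : outside `SwL L` the kind is 336's kind.
* `kd3_rn`, `kd3_hd` : at young kappa levels the thickness rises by one block from a-step to a-step (`hd` of `scaleOk_of`).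
* `kd3_hkd` : `hkd` of `scaleOk_of`, over the compressed path.
-/

set_option autoImplicit false

namespace Vale.Agent.P106.U.H404

open Finset
open Vale.Agent.P106.U.S3 (Run)
open Vale.Agent.P106.U.H833 (aN kN fN RN lev_a lev_k lev_f aN_mono)
open Vale.Agent.P106.U.H336 (KR kap Rg SwL Evt no_evt ind)
open Vale.Agent.P106.U.MIC (ix nz az rz bc)
open Vale.Agent.P106.U.H823
open Vale.Agent.P106.U.H495 (Lvl)

section

variable {Ω : Type} [Fintype Ω] {τ υ : Type} (R : Run Ω τ υ)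

open Classical in
/-- kind of a level: `1` young kappa, `2` young deep phi, `0` otherwise -/
noncomputable def kd3 (Vs Xs : Finset ℕ) (z : ℕ) : Fin 3 :=
  if z ∈ Vs ∧ z + 1 ∈ Vs ∧ z ∉ Xs ∧ z + 1 ∉ Xs ∧ z ≠ 0 then (if kap R z then 1 else 2) else 0

variable {R} {p : Run.Num} {B cS cV : ℕ} {rk0 : ℕ → ℕ} {Vs Xs : Finset ℕ}

/-- what `kd3 = 1` says -/
theorem kd3_one {z : ℕ} (h : kd3 R Vs Xs z = 1) :
    (z ∈ Vs ∧ z + 1 ∈ Vs ∧ z ∉ Xs ∧ z + 1 ∉ Xs ∧ z ≠ 0) ∧ kap R z := by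
  unfold kd3 at h
  split_ifs at h with h1 h2
  · exact ⟨h1, h2⟩
  · exact absurd h (by decide)
  · exact absurd h (by decide)

theorem kd3_two {z : ℕ} (h : kd3 R Vs Xs z = 2) :
    (z ∈ Vs ∧ z + 1 ∈ Vs ∧ z ∉ Xs ∧ z + 1 ∉ Xs ∧ z ≠ 0) ∧ ¬ kap R z := by
  unfold kd3 at h
  split_ifs at h with h1 h2
  · exact absurd h (by decide)
  · exact ⟨h1, h2⟩
  · exact absurd h (by decide)

/-- outside the exceptional levels nothing happens at `z` -/
theorem sw_evt {L z : ℕ} (hz : z ≤ aN R R.n) (h : z ∉ SwL R B Vs Xs L) : ¬ Evt R B Vs Xs L z :=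
  no_evt (z0 := z) (z1 := z) le_rfl hz (fun y h1 h2 => by
    have : y = z := by omega
    rw [this]
    exact h) le_rfl (Nat.le_add_right _ _)

/-- .. and nothing one level ahead -/
theorem sw_evt1 {L z : ℕ} (hL : 1 ≤ L) (hz : z ≤ aN R R.n) (h : z ∉ SwL R B Vs Xs L) : ¬ Evt R B Vs Xs L (z + 1) :=
  no_evt (z0 := z) (z1 := z) le_rfl hz (fun y h1 h2 => by
    have : y = z := by omega
    rw [this]
    exact h) (Nat.le_succ z) (by omega)

/-- **outside the exceptional levels** the kind is 336's kind -/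
theorem kd3_kd {L z : ℕ} (hz : z ≤ aN R R.n) (h : z ∉ SwL R B Vs Xs L) :
    (kd3 R Vs Xs z = 1 ↔ H336.kd R Vs z = 1) ∧ (kd3 R Vs Xs z = 2 ↔ H336.kd R Vs z = 2) ∧
      (kd3 R Vs Xs z = 0 ↔ H336.kd R Vs z = 0 ∨ H336.kd R Vs z = 3) := by
  have h1 := sw_evt hz h
  unfold Evt at h1
  push Not at h1
  obtain ⟨g0, g1, g2, g3, g4, _⟩ := h1
  unfold kd3 H336.kd
  by_cases hV : z ∈ Vs
  · have hV1 : z + 1 ∈ Vs := g3 hV
    rw [if_pos ⟨hV, hV1, g1, g2, g0⟩, if_pos hV]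
    by_cases hk : kap R z
    · rw [if_pos hk, if_pos hk]
      decide
    · rw [if_neg hk, if_neg hk]
      decide
  · rw [if_neg (fun hh => hV hh.1), if_neg hV]
    by_cases hk : kap R z
    · rw [if_pos hk]
      decide
    · rw [if_neg hk]
      decide

/-- **a change of the kind is an exceptional level** -/
theorem kd3_sw (H : Rg R B cS cV rk0 Vs Xs) (hP : R.Path p) {L z : ℕ} (hL : 1 ≤ L) (hz : z + 1 ≤ aN R R.n)
    (h : kd3 R Vs Xs z ≠ kd3 R Vs Xs (z + 1)) : z ∈ SwL R B Vs Xs L := by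
  by_contra hcon
  apply h
  have h1 := sw_evt (by omega) hcon
  have h2 := sw_evt1 hL (by omega) hcon
  unfold Evt at h1 h2
  push Not at h1 h2
  obtain ⟨g0, g1, g2, g3, g4, _⟩ := h1
  obtain ⟨k0, k1, k2, k3, k4, _⟩ := h2
  have hV : z ∈ Vs ↔ z + 1 ∈ Vs := ⟨g3, fun hh => by
    by_contra hc
    exact g4 hc hh⟩
  have e := H.kd_succ hP g0 hz g1 g2 hV
  unfold kd3
  by_cases a1 : z ∈ Vs
  · have a2 := g3 a1
    have a3 := k3 a2
    have t1 : z ∈ Vs ∧ z + 1 ∈ Vs ∧ z ∉ Xs ∧ z + 1 ∉ Xs ∧ z ≠ 0 := ⟨a1, a2, g1, g2, g0⟩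
    have t2 : z + 1 ∈ Vs ∧ z + 1 + 1 ∈ Vs ∧ z + 1 ∉ Xs ∧ z + 1 + 1 ∉ Xs ∧ z + 1 ≠ 0 := ⟨a2, a3, k1, k2, k0⟩
    rw [if_pos t1, if_pos t2]
    unfold H336.kd at e
    rw [if_pos a1, if_pos a2] at e
    by_cases b1 : kap R z <;> by_cases b2 : kap R (z + 1)
    · rw [if_pos b1, if_pos b2]
    · rw [if_pos b1, if_neg b2] at e
      exact absurd e (by decide)
    · rw [if_neg b1, if_pos b2] at e
      exact absurd e (by decide)
    · rw [if_neg b1, if_neg b2]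
  · have a2 : z + 1 ∉ Vs := fun hh => a1 (hV.2 hh)
    rw [if_neg (fun hh => a1 hh.1), if_neg (fun hh => a2 hh.1)]

/-- in the kappa regime the thickness is `kN + b1` -/
theorem rn_of_KR (hP : R.Path p) {k : ℕ} (hk : k ≤ R.n) (h : KR R k) : RN R R.b1 k = kN R k + R.b1 := by
  have h1 := lev_k hP (i := k) (by omega)
  have h2 := lev_f hP (i := k) (by omega)
  unfold KR at h
  rw [h1, h2] at h
  have h3 : R.m * (kN R k + R.b1) < R.m * fN R k := by
    rw [Nat.mul_add]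
    omega
  have h4 := Nat.lt_of_mul_lt_mul_left h3
  unfold RN
  omega

theorem ne_zero_of_aN (hP : R.Path p) {k : ℕ} (h : aN R k ≠ 0) : 1 ≤ k := by
  rcases Nat.eq_zero_or_pos k with h1 | h1
  · exfalso
    apply h
    rw [h1]
    unfold aN
    rw [hP.a0, Nat.zero_div]
  · exact h1

/-- **at the young kappa levels** the thickness rises by one block -/
theorem kd3_rn (H : Rg R B cS cV rk0 Vs Xs) (hP : R.Path p)
    (diag : ∀ i j, j ≤ R.n + p.J → R.IsA i → R.IsA j → R.C.a j = R.C.a i + R.m → (S3.lv R i ∈ Vs ∨ S3.lv R j ∈ Vs) →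
      R.C.rk j = R.C.rk i + R.m) {i j : ℕ} (hi : i ≤ R.n) (hj : j ≤ R.n) (hA : R.IsA i) (hA' : R.IsA j)
    (e : aN R j = aN R i + 1) (h : kd3 R Vs Xs (aN R i) = 1) :
    kN R j = kN R i + 1 ∧ RN R R.b1 j = RN R R.b1 i + 1 := by
  obtain ⟨⟨a1, a2, a3, a4, a5⟩, a6⟩ := kd3_one h
  have hij : i ≤ j := by
    by_contra hcon
    have := aN_mono hP (i := j) (j := i) (by omega) (by omega)
    omega
  have hi1 := ne_zero_of_aN hP a5
  have hKi : KR R i := (H.kap_iff hP hi1 hi a3).1 a6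
  have hKj : KR R j := (H.along hP hi1 hij hj fun z h1 h2 => by
    have : z = aN R i ∨ z = aN R i + 1 := by omega
    rcases this with h3 | h3 <;> rw [h3] <;> assumption).1 hKi
  have hd := diag i j (by omega) hA hA' (by
    rw [lev_a hP (i := j) (by omega), lev_a hP (i := i) (by omega), e]
    ring) (Or.inl a1)
  rw [lev_k hP (i := j) (by omega), lev_k hP (i := i) (by omega)] at hd
  have h1 : R.m * kN R j = R.m * (kN R i + 1) := by
    rw [Nat.mul_add, Nat.mul_one]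
    omega
  have h2 : kN R j = kN R i + 1 := Nat.eq_of_mul_eq_mul_left hP.m1 h1
  refine ⟨h2, ?_⟩
  rw [rn_of_KR hP hj hKj, rn_of_KR hP hi hKi, h2]
  omega

/-! ### the compressed path -/

/-- a step of the compressed path which moves the time is a time step of the record -/
theorem isA_of (hP : R.Path p) {i0 j : ℕ} (hj : i0 + j < Cmp.Nc R R.b1)
    (h : az R i0 (j + 1) = az R i0 j + 1) : R.IsA (ix R i0 j) := by
  have h' : aN R (Cmp.idx R R.b1 (i0 + j + 1)) = aN R (Cmp.idx R R.b1 (i0 + j)) + 1 := h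
  rcases Cmp.step2 (x := R.b1) hP (j := i0 + j) hj with ⟨h1, _⟩ | ⟨_, h1, _⟩
  · exact h1
  · omega

theorem az_top {i0 : ℕ} (hi : i0 ≤ Cmp.Nc R R.b1) : az R i0 (nz R i0) = aN R R.n := by
  show aN R (Cmp.idx R R.b1 (i0 + (Cmp.Nc R R.b1 - i0))) = _
  rw [show i0 + (Cmp.Nc R R.b1 - i0) = Cmp.Nc R R.b1 by omega, Cmp.idx_top]

/-- **`hkd`** of `scaleOk_of` -/
theorem kd3_hkd (H : Rg R B cS cV rk0 Vs Xs) (hP : R.Path p) {i0 L : ℕ} (hi : i0 ≤ Cmp.Nc R R.b1) (hL : 1 ≤ L) :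
    ∀ z, az R i0 0 ≤ z → z < az R i0 (nz R i0) → kd3 R Vs Xs z ≠ kd3 R Vs Xs (z + 1) → z ∈ SwL R B Vs Xs L := by
  intro z _ h2 h3
  rw [az_top hi] at h2
  exact kd3_sw H hP hL (by omega) h3

/-- **`hd`** of `scaleOk_of` -/
theorem kd3_hd (H : Rg R B cS cV rk0 Vs Xs) (hP : R.Path p)
    (diag : ∀ i j, j ≤ R.n + p.J → R.IsA i → R.IsA j → R.C.a j = R.C.a i + R.m → (S3.lv R i ∈ Vs ∨ S3.lv R j ∈ Vs) →
      R.C.rk j = R.C.rk i + R.m) {i0 : ℕ} {lm : ℕ → ℕ} (hl : Lvl (nz R i0) (az R i0) lm) :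
    ∀ z, az R i0 0 ≤ z → z + 1 < az R i0 (nz R i0) → kd3 R Vs Xs z = 1 → rz R i0 (lm (z + 1)) = rz R i0 (lm z) + 1 := by
  intro z h1 h2 h3
  have l1 := hl.lt z h1 (by omega)
  have l2 := hl.eq z h1 (by omega)
  have l3 := hl.st z h1 (by omega)
  have m1 := hl.lt (z + 1) (by omega) h2
  have m2 := hl.eq (z + 1) (by omega) h2
  have m3 := hl.st (z + 1) (by omega) h2
  have q1 : i0 + lm z < Cmp.Nc R R.b1 := by
    have : nz R i0 = Cmp.Nc R R.b1 - i0 := rfl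
    omega
  have q2 : i0 + lm (z + 1) < Cmp.Nc R R.b1 := by
    have : nz R i0 = Cmp.Nc R R.b1 - i0 := rfl
    omega
  have e1 : aN R (ix R i0 (lm z)) = z := l2
  have e2 : aN R (ix R i0 (lm (z + 1))) = z + 1 := m2
  exact (kd3_rn H hP diag (i := ix R i0 (lm z)) (j := ix R i0 (lm (z + 1))) (Cmp.idx_le _) (Cmp.idx_le _)
    (isA_of hP q1 (by rw [l3, l2])) (isA_of hP q2 (by rw [m3, m2])) (by rw [e1, e2]) (by rw [e1]; exact h3)).2

end

end Vale.Agent.P106.U.H404
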