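import Vale.Agent.P106.U.H61.PLem
import Vale.Agent.P106.U.H449.NGe
import Vale.Agent.P106.U.H428.RunPt
import Vale.Agent.P106.U.H470.V2M

/-!
# P106 / U / H404 : the last step of the rows of `PF2` (helper404)

* `core` : the real inequality : windows `b ∈ S`, distances `d ≤ B`; macroscopic part `Tc h / (B + 1) ^ 5` per window and distance,
  near part a square root; Cauchy–Schwarz over `(d, b)`.
* `NX` : families of numerators; `WinA` : the bound per window and distance.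
* **`row_of_win`** : the row from the bounds per window.
-/

set_option autoImplicit false

namespace Vale.Agent.P106.U.H404.FinR

open Finset Vale.Agent.P127 Vale.Agent.P127.Stk Vale.Agent.P127.U Vale.Agent.P106.W
open Vale.Agent.P127.U.CellD (q2 q2_pos q2_le q2_add)
open Vale.Agent.P106.U Vale.Agent.P106.U.H449
open Vale.Agent.P106.U.LinkR Vale.Agent.P106.U.InsL Vale.Agent.P106.U.InpC Vale.Agent.P106.U.StripL
open Vale.Agent.P106.U.H565 Vale.Agent.P106.U.H823.NumW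
open Vale.Agent.P127.U.Nonat Vale.Agent.P127.U.YPat Vale.Agent.P127.U.JSB
open Vale.Agent.P106.U.S3 (Run Pf)
open Vale.Agent.P106.U.H712.Fam (Win Vl Pl)
open Vale.Agent.P106.U.H61.Ext2 Vale.Agent.P106.U.H61.PS

/-! ### numbers -/

theorem q2_sq (n : ℕ) : q2 (n / 4) ≤ q2 (n / 8) ^ 2 := by
  rw [sq, ← q2_add]
  exact q2_le (by omega)

theorem sqrt_q2 (μ j : ℕ) : Real.sqrt (q2 (μ / 4) * q2 j) ≤ q2 (μ / 16) ^ 2 * q2 (j / 4) := by
  have h1 : q2 (μ / 4) ≤ (q2 (μ / 16) ^ 2) ^ 2 := by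
    rw [← pow_mul]
    have : q2 (μ / 16) ^ (2 * 2) = q2 (μ / 16 + μ / 16 + μ / 16 + μ / 16) := by
      rw [q2_add, q2_add, q2_add]
      ring
    rw [this]
    exact q2_le (by omega)
  have h2 : q2 j ≤ q2 (j / 4) ^ 2 := by
    rw [sq, ← q2_add]
    exact q2_le (by omega)
  have p1 := q2_pos (μ / 16)
  have p2 := q2_pos (j / 4)
  have p3 := (q2_pos j).le
  refine Real.sqrt_le_iff.2 ⟨by positivity, ?_⟩
  rw [mul_pow]
  exact mul_le_mul h1 h2 p3 (by positivity)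

theorem sum_sq (n : ℕ) : ∑ d ∈ range n, (1 / ((d : ℝ) + 1)) ^ 2 ≤ 2 := by
  have key : ∀ n : ℕ, ∑ d ∈ range (n + 1), (1 / ((d : ℝ) + 1)) ^ 2 ≤ 2 - 1 / ((n : ℝ) + 1) := by
    intro n
    induction n with
    | zero => norm_num
    | succ n ih =>
      rw [Finset.sum_range_succ]
      have h1 : (0 : ℝ) < (n : ℝ) + 1 := by positivity
      have h2 : (1 / (((n + 1 : ℕ) : ℝ) + 1)) ^ 2 ≤ 1 / ((n : ℝ) + 1) - 1 / (((n + 1 : ℕ) : ℝ) + 1) := by
        push_cast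
        rw [div_pow, one_pow, div_sub_div _ _ (by positivity) (by positivity), div_le_div_iff₀ (by positivity) (by positivity)]
        nlinarith
      linarith
  rcases n with _ | n
  · simp
  · have h := key n
    have : (0 : ℝ) ≤ 1 / ((n : ℝ) + 1) := by positivity
    linarith

/-- **the real inequality** -/
theorem core {B μ j : ℕ} (S : Finset ℕ) (X Y : ℕ → ℕ → ℝ) {h m nB Tc δ Cn c0 cE : ℝ} (hh : 0 < h) (hm : 0 < m) (hnB : 0 ≤ nB)
    (hT : 0 ≤ Tc) (hδ : 0 < δ) (hc0 : 0 ≤ c0) (hcE : 0 ≤ cE) (hS : (S.card : ℝ) ≤ nB)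
    (hY : ∀ d ∈ range (B + 1), ∀ b ∈ S, 0 ≤ Y d b)
    (hX : ∀ d ∈ range (B + 1), ∀ b ∈ S,
      X d b ≤ Tc * h / ((B : ℝ) + 1) ^ 5 + c0 * (m + μ + 1) * Real.sqrt (Tc * (h / m) * Y d b))
    (hE : ∑ d ∈ range (B + 1), ∑ b ∈ S, Y d b / (((2 : ℝ) ^ j) ^ 2 * (d + 1) ^ 2 * (Cn * (h / m)) * q2 (μ / 4)) ≤
      cE * (600 / (2 : ℝ) ^ j * q2 (μ / 4) * (nB * Tc)))
    (hCn0 : 0 < Cn) (hB : 1 ≤ B)
    (hμ : c0 * Real.sqrt (1200 * cE * Cn) * q2 (μ / 16) ≤ δ) :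
    ∑ d ∈ range (B + 1), ∑ b ∈ S,
      X d b / (h / B + (2 : ℝ) ^ j * (d + 1) ^ 2 * (m + μ + 1) * q2 (μ / 8) * (δ * (h / m))) ≤ nB * Tc * tgt B μ j := by
  set K' : ℝ := (2 : ℝ) ^ j with hK'
  have hK0 : 0 < K' := by rw [hK']; positivity
  have hqj : q2 j = 1 / K' := by rw [hK']; unfold q2; rw [one_div, inv_pow, one_div]
  have hB0 : (0 : ℝ) < B := by exact_mod_cast hB
  have hhm : 0 < h / m := div_pos hh hm
  have hM : 0 < m + μ + 1 := by positivity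
  have p4 := q2_pos (μ / 4)
  have p8 := q2_pos (μ / 8)
  have p16 := q2_pos (μ / 16)
  set FL : ℕ → ℝ := fun d => h / B + K' * (d + 1) ^ 2 * (m + μ + 1) * q2 (μ / 8) * (δ * (h / m)) with hFL
  set TU : ℕ → ℝ := fun d => K' ^ 2 * (d + 1) ^ 2 * (Cn * (h / m)) * q2 (μ / 4) with hTU
  have hFLp : ∀ d, 0 < FL d := fun d => by rw [hFL]; positivity
  have hTUp : ∀ d, 0 < TU d := fun d => by rw [hTU]; positivity
  -- the two parts of one term
  have key : ∀ d ∈ range (B + 1), ∀ b ∈ S, X d b / FL d ≤ Tc / ((B : ℝ) + 1) ^ 4 +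
      (c0 * (Real.sqrt (Cn * Tc) / δ)) * ((1 / ((d : ℝ) + 1)) * Real.sqrt (Y d b / TU d)) := by
    intro d hd b hb
    have h1 := div_le_div_of_nonneg_right (hX d hd b hb) (hFLp d).le
    refine h1.trans ?_
    rw [add_div]
    refine add_le_add ?_ ?_
    · have e1 : h / ((B : ℝ) + 1) ≤ FL d := by
        have e2 : h / ((B : ℝ) + 1) ≤ h / B := by
          exact div_le_div_of_nonneg_left hh.le hB0 (by linarith)
        have e3 : 0 ≤ K' * (d + 1) ^ 2 * (m + μ + 1) * q2 (μ / 8) * (δ * (h / m)) := by positivity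
        rw [hFL]
        show h / ((B : ℝ) + 1) ≤ h / B + K' * (d + 1) ^ 2 * (m + μ + 1) * q2 (μ / 8) * (δ * (h / m))
        linarith
      rw [div_le_iff₀ (hFLp d)]
      calc Tc * h / ((B : ℝ) + 1) ^ 5 = Tc / ((B : ℝ) + 1) ^ 4 * (h / ((B : ℝ) + 1)) := by field_simp
        _ ≤ Tc / ((B : ℝ) + 1) ^ 4 * FL d := mul_le_mul_of_nonneg_left e1 (by positivity)
    · -- the near part
      have hy := hY d hd b hb
      have hd1 : (0 : ℝ) < (d : ℝ) + 1 := by positivity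
      have e0 : Tc * (h / m) * Y d b = (Cn * Tc) * ((K' * (d + 1) * (h / m)) ^ 2 * q2 (μ / 4)) * (Y d b / TU d) := by
        rw [hTU]
        show Tc * (h / m) * Y d b = (Cn * Tc) * ((K' * (d + 1) * (h / m)) ^ 2 * q2 (μ / 4)) *
          (Y d b / (K' ^ 2 * (d + 1) ^ 2 * (Cn * (h / m)) * q2 (μ / 4)))
        field_simp
      have e1 : Real.sqrt (Tc * (h / m) * Y d b) =
          Real.sqrt (Cn * Tc) * (K' * (d + 1) * (h / m) * Real.sqrt (q2 (μ / 4))) * Real.sqrt (Y d b / TU d) := by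
        rw [e0, Real.sqrt_mul (by positivity), Real.sqrt_mul (by positivity),
          Real.sqrt_mul (sq_nonneg _), Real.sqrt_sq (by positivity)]
      have e2 : Real.sqrt (q2 (μ / 4)) ≤ q2 (μ / 8) := Real.sqrt_le_iff.2 ⟨p8.le, q2_sq μ⟩
      have e3 : K' * (d + 1) ^ 2 * (m + μ + 1) * q2 (μ / 8) * (δ * (h / m)) ≤ FL d := by
        rw [hFL]
        show K' * (d + 1) ^ 2 * (m + μ + 1) * q2 (μ / 8) * (δ * (h / m)) ≤
          h / B + K' * (d + 1) ^ 2 * (m + μ + 1) * q2 (μ / 8) * (δ * (h / m))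
        have : 0 ≤ h / (B : ℝ) := by positivity
        linarith
      rw [div_le_iff₀ (hFLp d), e1]
      have s1 := Real.sqrt_nonneg (Cn * Tc)
      have s2 := Real.sqrt_nonneg (Y d b / TU d)
      calc c0 * (m + μ + 1) * (Real.sqrt (Cn * Tc) * (K' * (d + 1) * (h / m) * Real.sqrt (q2 (μ / 4))) *
            Real.sqrt (Y d b / TU d)) ≤
          c0 * (m + μ + 1) * (Real.sqrt (Cn * Tc) * (K' * (d + 1) * (h / m) * q2 (μ / 8)) * Real.sqrt (Y d b / TU d)) := by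
            gcongr
        _ = (c0 * (Real.sqrt (Cn * Tc) / δ)) * ((1 / ((d : ℝ) + 1)) * Real.sqrt (Y d b / TU d)) *
            (K' * (d + 1) ^ 2 * (m + μ + 1) * q2 (μ / 8) * (δ * (h / m))) := by
            field_simp
        _ ≤ (c0 * (Real.sqrt (Cn * Tc) / δ)) * ((1 / ((d : ℝ) + 1)) * Real.sqrt (Y d b / TU d)) * FL d := by
            gcongr
  have h2 : ∑ d ∈ range (B + 1), ∑ b ∈ S, X d b / FL d ≤
      nB * Tc / ((B : ℝ) + 1) ^ 3 + (c0 * (Real.sqrt (Cn * Tc) / δ)) *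
        ∑ d ∈ range (B + 1), ∑ b ∈ S, (1 / ((d : ℝ) + 1)) * Real.sqrt (Y d b / TU d) := by
    refine (Finset.sum_le_sum fun d hd => Finset.sum_le_sum fun b hb => key d hd b hb).trans ?_
    simp only [Finset.sum_add_distrib, ← Finset.mul_sum]
    refine add_le_add ?_ le_rfl
    rw [Finset.sum_const, Finset.sum_const, Finset.card_range, nsmul_eq_mul, nsmul_eq_mul]
    push_cast
    have e1 : ((B : ℝ) + 1) * (S.card * (Tc / ((B : ℝ) + 1) ^ 4)) = S.card * (Tc / ((B : ℝ) + 1) ^ 3) := by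
      field_simp
    rw [e1]
    have e2 : nB * Tc / ((B : ℝ) + 1) ^ 3 = nB * (Tc / ((B : ℝ) + 1) ^ 3) := by ring
    rw [e2]
    exact mul_le_mul_of_nonneg_right hS (by positivity)
  -- Cauchy–Schwarz
  have h3 : ∑ d ∈ range (B + 1), ∑ b ∈ S, (1 / ((d : ℝ) + 1)) * Real.sqrt (Y d b / TU d) ≤
      Real.sqrt (2 * nB * (cE * (600 / K' * q2 (μ / 4) * (nB * Tc)))) := by
    rw [← Finset.sum_product' (range (B + 1)) S fun d b => (1 / ((d : ℝ) + 1)) * Real.sqrt (Y d b / TU d)]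
    have c1 := Finset.sum_mul_sq_le_sq_mul_sq (range (B + 1) ×ˢ S) (fun z => 1 / ((z.1 : ℝ) + 1))
      (fun z => Real.sqrt (Y z.1 z.2 / TU z.1))
    refine Real.le_sqrt_of_sq_le (c1.trans ?_)
    have c2 : ∑ z ∈ range (B + 1) ×ˢ S, (1 / ((z.1 : ℝ) + 1)) ^ 2 ≤ 2 * nB := by
      rw [Finset.sum_product' (range (B + 1)) S fun d _ => (1 / ((d : ℝ) + 1)) ^ 2]
      simp only [Finset.sum_const, nsmul_eq_mul]
      rw [← Finset.mul_sum]
      have c3 := sum_sq (B + 1)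
      have c4 : (0 : ℝ) ≤ S.card := Nat.cast_nonneg _
      nlinarith
    have c3 : ∑ z ∈ range (B + 1) ×ˢ S, Real.sqrt (Y z.1 z.2 / TU z.1) ^ 2 ≤
        cE * (600 / K' * q2 (μ / 4) * (nB * Tc)) := by
      rw [Finset.sum_product' (range (B + 1)) S fun d b => Real.sqrt (Y d b / TU d) ^ 2]
      refine le_trans (le_of_eq ?_) hE
      refine Finset.sum_congr rfl fun d hd => Finset.sum_congr rfl fun b hb => ?_
      rw [Real.sq_sqrt (div_nonneg (hY d hd b hb) (hTUp d).le)]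
    have c5 : 0 ≤ ∑ z ∈ range (B + 1) ×ˢ S, Real.sqrt (Y z.1 z.2 / TU z.1) ^ 2 :=
      Finset.sum_nonneg fun _ _ => sq_nonneg _
    exact mul_le_mul c2 c3 c5 (by positivity)
  have h4 : (c0 * (Real.sqrt (Cn * Tc) / δ)) * Real.sqrt (2 * nB * (cE * (600 / K' * q2 (μ / 4) * (nB * Tc)))) ≤
      nB * Tc * (q2 (μ / 16) * q2 (j / 4)) := by
    have e1 : Real.sqrt (Cn * Tc) * Real.sqrt (2 * nB * (cE * (600 / K' * q2 (μ / 4) * (nB * Tc)))) =
        (nB * Tc) * (Real.sqrt (1200 * cE * Cn) * Real.sqrt (q2 (μ / 4) * q2 j)) := by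
      rw [← Real.sqrt_mul (by positivity), ← Real.sqrt_mul (by positivity)]
      have e2 : Cn * Tc * (2 * nB * (cE * (600 / K' * q2 (μ / 4) * (nB * Tc)))) =
          (nB * Tc) ^ 2 * (1200 * cE * Cn * (q2 (μ / 4) * q2 j)) := by
        rw [hqj]
        field_simp
        ring
      rw [e2, Real.sqrt_mul (sq_nonneg _), Real.sqrt_sq (by positivity)]
    have e3 := sqrt_q2 μ j
    have s1 := Real.sqrt_nonneg (1200 * cE * Cn)
    have pj := q2_pos (j / 4)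
    calc (c0 * (Real.sqrt (Cn * Tc) / δ)) * Real.sqrt (2 * nB * (cE * (600 / K' * q2 (μ / 4) * (nB * Tc)))) =
        c0 / δ * (Real.sqrt (Cn * Tc) * Real.sqrt (2 * nB * (cE * (600 / K' * q2 (μ / 4) * (nB * Tc))))) := by ring
      _ = c0 / δ * ((nB * Tc) * (Real.sqrt (1200 * cE * Cn) * Real.sqrt (q2 (μ / 4) * q2 j))) := by rw [e1]
      _ ≤ c0 / δ * ((nB * Tc) * (Real.sqrt (1200 * cE * Cn) * (q2 (μ / 16) ^ 2 * q2 (j / 4)))) := by gcongr
      _ = (nB * Tc) * (q2 (μ / 16) * q2 (j / 4)) * ((c0 * Real.sqrt (1200 * cE * Cn) * q2 (μ / 16)) / δ) := by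
          field_simp
      _ ≤ (nB * Tc) * (q2 (μ / 16) * q2 (j / 4)) * 1 := by
          refine mul_le_mul_of_nonneg_left ?_ (by positivity)
          rw [div_le_one hδ]
          exact hμ
      _ = _ := by ring
  have h5 : 0 ≤ c0 * (Real.sqrt (Cn * Tc) / δ) := by positivity
  have h6 := mul_le_mul_of_nonneg_left h3 h5
  have h7 : nB * Tc * tgt B μ j = nB * Tc / ((B : ℝ) + 1) ^ 3 + nB * Tc * (q2 (μ / 16) * q2 (j / 4)) := by
    unfold tgt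
    ring
  rw [h7]
  linarith


/-! ### one window -/

section win

variable {Ω : Type} [Fintype Ω] (w : Win Ω)

theorem av_sum {ι : Type*} (T : ℕ) (s : Finset ι) (f : ι → ℕ → Vl → ℝ) :
    w.av T (fun k z => ∑ i ∈ s, f i k z) = ∑ i ∈ s, w.av T (f i) := by
  classical
  induction s using Finset.induction_on with
  | empty =>
    unfold H712.Fam.Win.av
    simp only [Finset.sum_empty, ite_self]
    refine Finset.sum_eq_zero fun k _ => ?_
    unfold Law.ex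
    simp
  | insert a s ha ih =>
    rw [Finset.sum_insert ha, ← ih, ← w.av_add]
    unfold H712.Fam.Win.av
    refine Finset.sum_congr rfl fun k _ => w.Q1.ex_congr fun ω _ => ?_
    beta_reduce
    rw [Finset.sum_insert ha]

theorem av_mul (T : ℕ) (c : ℝ) (f : ℕ → Vl → ℝ) : w.av T (fun k z => c * f k z) = c * w.av T f := by
  classical
  unfold H712.Fam.Win.av
  rw [Finset.mul_sum]
  refine Finset.sum_congr rfl fun k _ => ?_
  rw [← w.Q1.ex_const_mul]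
  refine w.Q1.ex_congr fun ω _ => ?_
  split_ifs
  · rfl
  · rw [mul_zero]

theorem cv_I (k : ℕ) (z : Vl) : (w.cv k z).I = w.c.I := by
  unfold H712.Fam.Win.cv
  split_ifs
  · rfl
  · rfl

theorem cv_K1 (k : ℕ) (z : Vl) : (w.cv k z).K1 = w.K1 := by
  unfold H712.Fam.Win.cv
  split_ifs
  · rfl
  · rfl

theorem cv_N0 (k : ℕ) (z : Vl) : (w.cv k z).N0 = w.N0 := by
  unfold H712.Fam.Win.cv
  split_ifs
  · rfl
  · rfl

theorem R_n (k : ℕ) (z : Vl) : (w.R k z).n = (w.cv k z).D.n := rfl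

theorem R_m (k : ℕ) (z : Vl) : (w.R k z).m = w.c.I.m := by
  rw [← cv_I w k z]
  rfl

theorem R_h (k : ℕ) (z : Vl) : (w.R k z).h = w.c.I.h := by
  rw [← cv_I w k z]
  rfl

theorem nm_J (k : ℕ) (z : Vl) : (w.nm k z).J = w.c.I.J := by
  rw [← cv_I w k z]
  rfl

/-- **the number of the indices** -/
theorem n_up (hN : 2 ≤ w.N0) (h1 : (1 : ℝ) ≤ w.c.I.h / w.c.I.m) (k : ℕ) (z : Vl) :
    ((w.R k z).n : ℝ) + (w.nm k z).J + 1 ≤ (3 + 2 * w.K1) * (w.c.I.h / w.c.I.m) := by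
  have h := H428.RunPt.n_real (w.cv k z) (by rw [cv_N0]; exact hN)
  rw [R_n, nm_J]
  rw [cv_K1, cv_I] at h
  push_cast at h
  linarith

/-- **lower bound of `F2b`** -/
theorem F2b_low (hC1 : 1 ≤ w.c.I.C1) (hδ : 0 ≤ w.c.I.δ1) (hδ8 : 8 * w.c.I.δ1 ≤ 1 / 4) {B μ d : ℕ} {K' : ℝ} (hK : 0 ≤ K')
    (k : ℕ) (z : Vl) :
    (w.c.I.h : ℝ) / B + K' * (d + 1) ^ 2 * (w.c.I.m + μ + 1) * q2 (μ / 8) * (5 * w.c.I.δ1 * ((w.c.I.h : ℝ) / w.c.I.m)) ≤
      S3.F2b (w.R k z) (w.nm k z) B μ K' d := by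
  have h := H449.NGe.F2b_ge (w.cv k z) (R := w.R k z) (p := w.nm k z) rfl rfl rfl (by rw [cv_I]; exact hC1)
    (by rw [cv_I]; exact hδ) (by rw [cv_I]; exact hδ8) (B := B) (μ := μ) (d := d) hK
  rw [cv_I] at h
  exact h

theorem sum_sqrt_le {ι : Type*} (I : Finset ι) (e : ι → ℝ) (he : ∀ i ∈ I, 0 ≤ e i) {N E : ℝ} (hN : (I.card : ℝ) ≤ N)
    (hE : ∑ i ∈ I, e i ≤ E) : ∑ i ∈ I, Real.sqrt (e i) ≤ Real.sqrt (N * E) := by
  have h1 : (∑ i ∈ I, Real.sqrt (e i)) ^ 2 ≤ I.card * ∑ i ∈ I, Real.sqrt (e i) ^ 2 := sq_sum_le_card_mul_sum_sq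
  have h2 : ∑ i ∈ I, Real.sqrt (e i) ^ 2 = ∑ i ∈ I, e i := Finset.sum_congr rfl fun i hi => Real.sq_sqrt (he i hi)
  rw [h2] at h1
  have h3 : 0 ≤ ∑ i ∈ I, e i := Finset.sum_nonneg he
  have h4 : (0 : ℝ) ≤ I.card := Nat.cast_nonneg _
  exact Real.le_sqrt_of_sq_le (h1.trans (mul_le_mul hN hE h3 (h4.trans hN)))

/-- **square roots in the mean** -/
theorem av_sqrt {T : ℕ} (I : ℕ → Vl → Finset ℕ) (e : ℕ → Vl → ℕ → ℝ) (E : ℕ → Vl → ℝ) {N : ℝ} (hN0 : 0 ≤ N)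
    (he : ∀ k z, ∀ i ∈ I k z, 0 ≤ e k z i) (hN : ∀ k < T, ∀ z, 0 < w.Q1.pr (w.Z k) z → H712.Fam.Win.good k z →
      ((I k z).card : ℝ) ≤ N)
    (hE : ∀ k < T, ∀ z, 0 < w.Q1.pr (w.Z k) z → H712.Fam.Win.good k z → ∑ i ∈ I k z, e k z i ≤ E k z)
    (hE0 : ∀ k z, 0 ≤ E k z) :
    w.av T (fun k z => ∑ i ∈ I k z, Real.sqrt (e k z i)) ≤ Real.sqrt (N * (T * w.av T E)) := by
  classical
  have h1 : w.av T (fun k z => ∑ i ∈ I k z, Real.sqrt (e k z i)) ≤ w.av T (fun k z => Real.sqrt (N * E k z)) :=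
    w.av_mono fun k hk z hz hg => sum_sqrt_le _ _ (he k z) (hN k hk z hz hg) (hE k hk z hz hg)
  refine h1.trans ?_
  unfold H712.Fam.Win.av
  have h2 : ∀ k ∈ range T, w.Q1.ex (fun ω => if H712.Fam.Win.good k (w.Z k ω) then Real.sqrt (N * E k (w.Z k ω)) else 0) ≤
      Real.sqrt (N * w.Q1.ex (fun ω => if H712.Fam.Win.good k (w.Z k ω) then E k (w.Z k ω) else 0)) := by
    intro k _
    rw [← w.Q1.ex_const_mul]
    refine le_trans (w.Q1.ex_mono fun ω _ => ?_) (H470.ex_sqrt w.Q1 _ fun ω => ?_)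
    · split_ifs
      · exact le_rfl
      · rw [mul_zero, Real.sqrt_zero]
    · split_ifs
      · exact mul_nonneg hN0 (hE0 _ _)
      · rw [mul_zero]
  refine (Finset.sum_le_sum h2).trans ?_
  refine (sum_sqrt_le (range T) _ (fun k _ => mul_nonneg hN0 (w.Q1.ex_nonneg fun ω _ => ?_)) (N := T)
    (by rw [Finset.card_range]) le_rfl).trans (le_of_eq ?_)
  · split_ifs
    · exact hE0 _ _
    · exact le_rfl
  · rw [← Finset.mul_sum]
    congr 1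
    ring

end win

/-! ### the rows -/

/-- families of numerators -/
abbrev NX := ∀ (_ : Par) (_ : ℕ) (_ : ℝ) (_ : Fin 7 → ℝ) (_ : ℕ → ℝ) (_ : ℕ) (Ω : Type) [Fintype Ω], Win Ω → ℕ → Vl → ℝ

/-- **the bound per window and distance** : macroscopic part `Tc h / (B + 1) ^ 5`, near part by the mean of `sE` over the caps `k < 2 Tc` -/
def WinA (FX : FO) (sX sE : NX) (c0 : ℝ) (σ : S5.Cst) (K cc : ℝ) (J M Md : ℕ) : Prop :=
  Evp fun p X0 R0 h0 => ∀ (Ω : Type) [Fintype Ω] (x : Ctx σ cc J M Md p X0 R0 h0 Ω) (oo : Oo),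
    FX σ K cc J M Md p X0 R0 h0 Ω x oo → ∀ μ ≤ p.B, p.m ≤ μ → ∀ j : ℕ, (100 * K) ^ 20 ≤ (2 : ℝ) ^ j → (2 : ℝ) ^ j ≤ 2 * p.B →
    ∀ (o : Fin 7 → ℝ) (o' : ℕ → ℝ), Off x oo μ (2 ^ j) o o' → ∀ d ≤ p.B, ∀ b0 ∈ x.bs,
      (x.win oo b0).av p.Tc (fun k z => if p.k1 ≤ k then sX p μ (2 ^ j) o o' d Ω (x.win oo b0) k z else 0) ≤
        p.Tc * x.c.I.h / ((p.B : ℝ) + 1) ^ 5 + c0 * (p.m + μ + 1) *
          Real.sqrt (p.Tc * (x.c.I.h / p.m) * (x.win oo b0).av (2 * p.Tc) (sE p μ (2 ^ j) o o' d Ω (x.win oo b0)))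

/-- **the row from the bounds per window** -/
theorem row_of_win (FX : FO) (sX sE : NX) {cE : ℝ} (hcE : 0 ≤ cE)
    (hX0 : ∀ (p : Par) (μ : ℕ) (K' : ℝ) (o : Fin 7 → ℝ) (o' : ℕ → ℝ) (d : ℕ) (Ω : Type) [Fintype Ω] (w : Win Ω) (k : ℕ) (z : Vl),
      0 ≤ sX p μ K' o o' d Ω w k z)
    (hE0 : ∀ (p : Par) (μ : ℕ) (K' : ℝ) (o : Fin 7 → ℝ) (o' : ℕ → ℝ) (d : ℕ) (Ω : Type) [Fintype Ω] (w : Win Ω) (k : ℕ) (z : Vl),
      0 ≤ sE p μ K' o o' d Ω w k z)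
    (hE : ∀ (p : Par) (μ : ℕ) (K' : ℝ) (o : Fin 7 → ℝ) (o' : ℕ → ℝ) (Ω : Type) [Fintype Ω] (w : Win Ω) (k : ℕ) (z : Vl),
      0 < K' → ∑ d ∈ range (p.B + 1), sE p μ K' o o' d Ω w k z / tD (w.R k z) (w.nm k z) μ K' d ≤
        cE * H101.Off.o4 (w.R k z) (w.nm k z) p.B (w.bS p.fp k) (w.bV p.fp k) (w.F p.fp k z) (H101.Off.allV (w.R k z)) ∅ μ K' o o')
    (h : ∀ σ : S5.Cst, σ.Ok → ∀ (K Cψ cc : ℝ) (J M Md : ℕ), Cnd K Cψ cc J M Md → ∃ c0 : ℝ, 0 ≤ c0 ∧ WinA FX sX sE c0 σ K cc J M Md) :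
    Row FX fun p μ K' o o' Ω _ w k z =>
      ∑ d ∈ range (p.B + 1), sX p μ K' o o' d Ω w k z / S3.F2b (w.R k z) (w.nm k z) p.B μ K' d := by
  intro σ hσ K Cψ cc J M Md hc
  obtain ⟨c0, hc0, H⟩ := h σ hσ K Cψ cc J M Md hc
  have hδ := hσ.δ0
  set Cn : ℝ := 3 + 2 * (σ.K1 + 1 / 2) with hCn
  have hCn0 : 0 < Cn := by
    have := hσ.bs.K10
    rw [hCn]
    linarith
  have hC1 : 1 ≤ σ.C1 := by
    show 1 ≤ 1000 / σ.lam + 1
    have := hσ.bs.lam0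
    have : 0 ≤ 1000 / σ.lam := by positivity
    linarith
  have hm : ∃ m0 : ℕ, ∀ m, m0 ≤ m → ∃ B0 : ℕ, ∀ B : ℕ, B0 ≤ B →
      (c0 * Real.sqrt (1200 * cE * Cn) * q2 (m / 16) ≤ 5 * σ.δ1 ∧ 1 ≤ B) := by
    obtain ⟨n, hn⟩ := exists_pow_lt_of_lt_one (show 0 < 5 * σ.δ1 / (c0 * Real.sqrt (1200 * cE * Cn) + 1) by positivity)
      (show (1 / 2 : ℝ) < 1 by norm_num)
    refine ⟨16 * n, fun m hm => ⟨1, fun B hB => ⟨?_, hB⟩⟩⟩
    have h1 : q2 (m / 16) ≤ (1 / 2 : ℝ) ^ n := q2_le (show n ≤ m / 16 by omega)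
    have h2 : 0 ≤ c0 * Real.sqrt (1200 * cE * Cn) := by positivity
    have h3 : 0 < c0 * Real.sqrt (1200 * cE * Cn) + 1 := by linarith
    rw [lt_div_iff₀ h3] at hn
    have h4 := q2_pos (m / 16)
    calc c0 * Real.sqrt (1200 * cE * Cn) * q2 (m / 16) ≤ c0 * Real.sqrt (1200 * cE * Cn) * (1 / 2 : ℝ) ^ n := by gcongr
      _ ≤ (1 / 2 : ℝ) ^ n * (c0 * Real.sqrt (1200 * cE * Cn) + 1) := by
        have : (0 : ℝ) < (1 / 2 : ℝ) ^ n := by positivity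
        nlinarith
      _ ≤ _ := hn.le
  refine (Evp.and H (Evp.of hm)).mono fun p X0 R0 h0 HH => ?_
  obtain ⟨H1, H2, H3⟩ := HH
  intro Ω _ x oo hFX μ hμ hmμ j h1 h2 o o' hoff
  have em : (x.c.I.m : ℝ) = p.m := by rw [x.em]
  have hm0 : (0 : ℝ) < p.m := by
    have : 3 ≤ p.m := x.em ▸ x.hm
    exact_mod_cast (show 0 < p.m by omega)
  have hhm : (1 : ℝ) ≤ x.c.I.h / x.c.I.m := by
    have := x.good.hm
    push_cast at this
    linarith
  have hh : (0 : ℝ) < x.c.I.h := by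
    rcases (Nat.cast_nonneg x.c.I.h : (0 : ℝ) ≤ x.c.I.h).lt_or_eq with hlt | heq
    · exact hlt
    · rw [← heq, zero_div] at hhm
      linarith
  have hK0 : (0 : ℝ) < 2 ^ j := by positivity
  -- the windows
  have hS : (x.bs.card : ℝ) ≤ x.nB := by
    have e1 : x.bs ⊆ Ioc 0 x.nB := by
      intro b hb
      obtain ⟨b1, b2⟩ := x.mem_bs.1 hb
      rw [Finset.mem_Ioc]
      constructor
      · omega
      · omega
    have e2 := Finset.card_le_card e1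
    rw [Nat.card_Ioc] at e2
    exact_mod_cast (show x.bs.card ≤ x.nB by omega)
  set FL : ℕ → ℝ := fun d => (x.c.I.h : ℝ) / p.B + (2 : ℝ) ^ j * (d + 1) ^ 2 * (p.m + μ + 1) * q2 (μ / 8) *
    (5 * σ.δ1 * ((x.c.I.h : ℝ) / p.m)) with hFL
  set TU : ℕ → ℝ := fun d => ((2 : ℝ) ^ j) ^ 2 * (d + 1) ^ 2 * (Cn * ((x.c.I.h : ℝ) / p.m)) * q2 (μ / 4) with hTU
  have p4 := q2_pos (μ / 4)
  have p8 := q2_pos (μ / 8)
  have hB0 : (0 : ℝ) < p.B := by exact_mod_cast H3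
  have hFLp : ∀ d, 0 < FL d := fun d => by rw [hFL]; positivity
  have hTUp : ∀ d, 0 < TU d := fun d => by rw [hTU]; positivity
  have hF : ∀ (b0 k : ℕ) (z : Vl) (d : ℕ), FL d ≤ S3.F2b ((x.win oo b0).R k z) ((x.win oo b0).nm k z) p.B μ (2 ^ j) d := by
    intro b0 k z d
    have := F2b_low (x.win oo b0) (show 1 ≤ x.c.I.C1 by rw [x.eC]; exact hC1) (show 0 ≤ x.c.I.δ1 by rw [x.eδ]; exact hδ.le)
      (show 8 * x.c.I.δ1 ≤ 1 / 4 by rw [x.eδ]; exact hσ.δθ.trans hσ.θ4) (B := p.B) (μ := μ) (d := d) hK0.le k z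
    have e : (x.win oo b0).c = x.c := rfl
    rw [e, x.eδ, em] at this
    exact this
  have hD : ∀ (b0 k : ℕ) (z : Vl) (d : ℕ), tD ((x.win oo b0).R k z) ((x.win oo b0).nm k z) μ (2 ^ j) d ≤ TU d := by
    intro b0 k z d
    have := n_up (x.win oo b0) (show 2 ≤ 4 by norm_num) hhm k z
    have e : (x.win oo b0).c = x.c := rfl
    have e' : (x.win oo b0).K1 = σ.K1 + 1 / 2 := rfl
    rw [e, e', em] at this
    unfold tD
    show ((2 : ℝ) ^ j) ^ 2 * (d + 1) ^ 2 * (((x.win oo b0).R k z).n + ((x.win oo b0).nm k z).J + 1) * q2 (μ / 4) ≤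
      ((2 : ℝ) ^ j) ^ 2 * (d + 1) ^ 2 * (Cn * ((x.c.I.h : ℝ) / p.m)) * q2 (μ / 4)
    exact mul_le_mul_of_nonneg_right (mul_le_mul_of_nonneg_left this (by positivity)) p4.le
  -- the parts
  have key := core (B := p.B) (μ := μ) (j := j) x.bs
    (fun d b0 => (x.win oo b0).av p.Tc (fun k z => if p.k1 ≤ k then sX p μ (2 ^ j) o o' d Ω (x.win oo b0) k z else 0))
    (fun d b0 => (x.win oo b0).av (2 * p.Tc) (sE p μ (2 ^ j) o o' d Ω (x.win oo b0)))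
    (h := x.c.I.h) (m := p.m) (nB := x.nB) (Tc := p.Tc) (δ := 5 * σ.δ1) (Cn := Cn) (c0 := c0) (cE := cE) hh hm0
    (Nat.cast_nonneg _) (Nat.cast_nonneg _) (by positivity) hc0 hcE hS
    (fun d _ b _ => Ctx.av_nonneg _ fun k z => hE0 _ _ _ _ _ _ _ _ _ _)
    (fun d hd b hb => H1 Ω x oo hFX μ hμ hmμ j h1 h2 o o' hoff d (by
      have := Finset.mem_range.1 hd
      omega) b hb)
    ?_ hCn0 H3 ?_
  · refine le_trans ?_ key
    have e1 : ∑ d ∈ range (p.B + 1), ∑ b0 ∈ x.bs,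
        (x.win oo b0).av p.Tc (fun k z => if p.k1 ≤ k then sX p μ (2 ^ j) o o' d Ω (x.win oo b0) k z else 0) / FL d =
        x.mean oo p.Tc (fun w k z => ∑ d ∈ range (p.B + 1),
          (FL d)⁻¹ * (if p.k1 ≤ k then sX p μ (2 ^ j) o o' d Ω w k z else 0)) := by
      rw [Finset.sum_comm]
      unfold Ctx.mean
      refine Finset.sum_congr rfl fun b0 _ => ?_
      rw [av_sum]
      refine Finset.sum_congr rfl fun d _ => ?_
      rw [av_mul, div_eq_inv_mul]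
    rw [e1]
    refine x.mean_mono' fun b0 _ k _ z _ _ => ?_
    split_ifs with hk
    · refine Finset.sum_le_sum fun d _ => ?_
      rw [div_eq_inv_mul]
      refine mul_le_mul_of_nonneg_right ?_ (hX0 _ _ _ _ _ _ _ _ _ _)
      exact inv_anti₀ (hFLp d) (hF b0 k z d)
    · simp
  · -- the near parts
    have e1 : ∑ d ∈ range (p.B + 1), ∑ b0 ∈ x.bs,
        (x.win oo b0).av (2 * p.Tc) (sE p μ (2 ^ j) o o' d Ω (x.win oo b0)) / TU d =
        x.mean oo (2 * p.Tc) (fun w k z => ∑ d ∈ range (p.B + 1), (TU d)⁻¹ * sE p μ (2 ^ j) o o' d Ω w k z) := by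
      rw [Finset.sum_comm]
      unfold Ctx.mean
      refine Finset.sum_congr rfl fun b0 _ => ?_
      rw [av_sum]
      refine Finset.sum_congr rfl fun d _ => ?_
      rw [av_mul, div_eq_inv_mul]
    show ∑ d ∈ range (p.B + 1), ∑ b0 ∈ x.bs,
        (x.win oo b0).av (2 * p.Tc) (sE p μ (2 ^ j) o o' d Ω (x.win oo b0)) / TU d ≤ _
    rw [e1]
    have e2 : x.mean oo (2 * p.Tc) (fun w k z => ∑ d ∈ range (p.B + 1), (TU d)⁻¹ * sE p μ (2 ^ j) o o' d Ω w k z) ≤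
        x.mean oo (2 * p.Tc) (fun w k z => cE * H101.Off.o4 (w.R k z) (w.nm k z) p.B (w.bS p.fp k) (w.bV p.fp k) (w.F p.fp k z)
          (H101.Off.allV (w.R k z)) ∅ μ (2 ^ j) o o') := by
      refine x.mean_mono' fun b0 _ k _ z _ _ => ?_
      refine le_trans (Finset.sum_le_sum fun d _ => ?_) (hE p μ (2 ^ j) o o' Ω (x.win oo b0) k z hK0)
      rw [div_eq_inv_mul]
      refine mul_le_mul_of_nonneg_right ?_ (hE0 _ _ _ _ _ _ _ _ _ _)
      exact inv_anti₀ (tD_pos hK0) (hD b0 k z d)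
    refine e2.trans ?_
    have e3 : x.mean oo (2 * p.Tc) (fun w k z => cE * H101.Off.o4 (w.R k z) (w.nm k z) p.B (w.bS p.fp k) (w.bV p.fp k)
        (w.F p.fp k z) (H101.Off.allV (w.R k z)) ∅ μ (2 ^ j) o o') =
        cE * x.mean oo (2 * p.Tc) (fun w k z => H101.Off.o4 (w.R k z) (w.nm k z) p.B (w.bS p.fp k) (w.bV p.fp k)
          (w.F p.fp k z) (H101.Off.allV (w.R k z)) ∅ μ (2 ^ j) o o') := by
      unfold Ctx.mean
      rw [Finset.mul_sum]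
      exact Finset.sum_congr rfl fun b0 _ => av_mul _ _ _ _
    rw [e3]
    exact mul_le_mul_of_nonneg_left hoff.avg hcE
  · refine le_trans ?_ H2
    have : q2 (μ / 16) ≤ q2 (p.m / 16) := q2_le (by omega)
    gcongr

end Vale.Agent.P106.U.H404.FinR
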