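import Vale.Agent.P106.U.MIC.Stage
import Vale.Agent.P106.U.H404.Kd3
import Vale.Agent.P106.U.H812.RecS
import Vale.Agent.P106.U.H652.Ev3

/-!
# P106 / U / H404 : row [KD] of one scale (helper404), over helper336's exceptional levels

* `rg_of` : 336's `Rg` from the field `f2`.
* `St.kd_eq` : `s.kd` from 336's kind.
* **`rowKd : MIC.RowKd`**, with `Sw = SwL .. 1`.
-/

set_option autoImplicit false

namespace Vale.Agent.P106.U.H404

open Finset
open Vale.Agent.P106.U.S3 (Run)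
open Vale.Agent.P106.U.S5
open Vale.Agent.P106.U.H833 (aN kN fN RN lev_a lev_k lev_f aN_mono)
open Vale.Agent.P106.U.H336 (KR kap Rg SwL Evt no_evt ind)
open Vale.Agent.P106.U.MIC
open Vale.Agent.P106.U.H823
open Vale.Agent.P106.U.H495 (Lvl)

/-- 336's data from the field `f2` -/
theorem rg_of {Ω : Type} [Fintype Ω] {τ υ π : Type} {R : Run Ω τ υ} {p : Run.Num} {K : ℝ} {B bS bV : ℕ} {F : S3.Pf R π}
    {Vs Xs : Finset ℕ} (hB : 1 ≤ B) (hm : 1 ≤ R.m) (f : S3.F2 R p K B bS bV F Vs Xs) : Rg R B bS bV F.rk0 Vs Xs where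
  B1 := hB
  l0 := F.l0
  S1 := by
    have h1 := f.loS
    have h2 : 1 * 1 ≤ R.m * B := Nat.mul_le_mul hm hB
    rw [Nat.mul_add] at h1
    omega
  V1 := by
    have h1 := f.loS
    have h3 := f.loV
    have h2 : 1 * 1 ≤ R.m * B := Nat.mul_le_mul hm hB
    rw [Nat.mul_add] at h1
    omega
  old := f.regS
  yng := f.reg

section

variable {η : ℝ} {x : ℕ} {σ : Cst} {ε : ℝ} {ρ : Thr} {g : Gv} {m B h : ℕ}

/-- the kind -/
theorem kd_cases (s : St η x σ ε ρ g m B h) (z : ℕ) :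
    (s.kd z = 1 ↔ H336.kd s.R s.Vs z = 1) ∧ (s.kd z = 2 ↔ H336.kd s.R s.Vs z = 2) ∧
      (s.kd z = 0 ↔ H336.kd s.R s.Vs z = 0 ∨ H336.kd s.R s.Vs z = 3) := by
  have e : (∃ k, 1 ≤ k ∧ k ≤ s.R.n ∧ S3.lv s.R k = z ∧ s.R.m * s.R.b1 + s.R.C.rk k < s.R.C.rf k) ↔ kap s.R z := Iff.rfl
  unfold St.kd H336.kd
  by_cases hV : z ∈ s.Vs
  · rw [if_pos hV, if_pos hV]
    by_cases hk : kap s.R z
    · rw [if_pos (e.2 hk), if_pos hk]
      decide
    · rw [if_neg (fun hh => hk (e.1 hh)), if_neg hk]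
      decide
  · rw [if_neg hV, if_neg hV]
    by_cases hk : kap s.R z
    · rw [if_pos hk]
      decide
    · rw [if_neg hk]
      decide

theorem kd_congr (s : St η x σ ε ρ g m B h) {z z' : ℕ} (e : H336.kd s.R s.Vs z = H336.kd s.R s.Vs z') : s.kd z = s.kd z' := by
  obtain ⟨h1, h2, h3⟩ := kd_cases s z
  obtain ⟨k1, k2, k3⟩ := kd_cases s z'
  rw [← e] at k1 k2 k3
  have hc : ∀ y : Fin 3, y = 0 ∨ y = 1 ∨ y = 2 := by decide
  rcases hc (s.kd z) with h | h | h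
  · rw [h, k3.2 (h3.1 h)]
  · rw [h, k1.2 (h1.1 h)]
  · rw [h, k2.2 (h2.1 h)]

/-- **a change of the kind is an exceptional level** -/
theorem kd_sw (s : St η x σ ε ρ g m B h) (hB : 1 ≤ B) {L z : ℕ} (hz : z + 1 ≤ aN s.R s.R.n) (h : s.kd z ≠ s.kd (z + 1)) :
    z ∈ SwL s.R B s.Vs s.Xs L := by
  by_contra hcon
  apply h
  have hP := s.run.ok.pth
  have h1 := sw_evt (by omega) hcon
  unfold Evt at h1
  push Not at h1
  obtain ⟨g0, g1, g2, g3, g4, _⟩ := h1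
  refine kd_congr s ((rg_of hB hP.m1 s.f2).kd_succ hP g0 hz g1 g2 ⟨g3, fun hh => ?_⟩)
  by_contra hc
  exact g4 hc hh

/-- **the diagonal at the young kappa levels** -/
theorem kd_diag (s : St η x σ ε ρ g m B h) (hB : 1 ≤ B) {L z : ℕ} (h0 : s.a 0 ≤ z) (hz : z + 1 < s.a s.N)
    (hk : s.kd z = 1) (hS : z ∉ SwL s.R B s.Vs s.Xs L) : s.r (s.lm (z + 1)) = s.r (s.lm z) + 1 := by
  have hP := s.run.ok.pth
  have htop : s.a s.N = aN s.R s.R.n := az_top s.hi0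
  have h1 : kd3 s.R s.Vs s.Xs z = 1 := (kd3_kd (by omega) hS).1.2 ((kd_cases s z).1.1 hk)
  exact kd3_hd (rg_of hB hP.m1 s.f2) hP s.f2.diag (H812.lvl s.word.sd) z h0 hz h1

end

/-- **row [KD]** -/
theorem rowKd : RowKd := by
  intro b hb η hη x δh e3 _ _ _
  refine ⟨1, one_pos, fun θ hθ _ => ⟨1, one_pos, fun δ1 hδ1 _ σ hσe hσ => ⟨1, one_pos, fun ε hε _ ρ hρ => ?_⟩⟩⟩
  intro κ hκ g _
  refine ⟨0, fun m _ => ?_⟩
  set X : ℝ := 2 * (4 + 2 * (2 * σ.K1 + 3)) with hX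
  have hK1 := hσ.bs.K10
  have hX0 : 0 < X := by positivity
  refine ⟨max 1 ⌈2 * X / κ⌉₊, fun B hB => ?_⟩
  have hB1 : 1 ≤ B := (le_max_left _ _).trans hB
  have hB2 : 2 * X / κ ≤ B := (Nat.le_ceil _).trans (by exact_mod_cast (le_max_right _ _).trans hB)
  have hB0 : (0 : ℝ) < B := by exact_mod_cast hB1
  refine ⟨⌈12 * m / κ⌉₊, fun h hh s => ?_⟩
  have hh2 : 12 * m / κ ≤ h := (Nat.le_ceil _).trans (by exact_mod_cast hh)
  have hP := s.run.ok.pth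
  refine ⟨SwL s.R B s.Vs s.Xs 1, ?_, ?_, ?_⟩
  · have h1 := H336.SwL_le (R := s.R) (Vs := s.Vs) (Xs := s.Xs) hP (K1 := σ.K1) (by
      rw [s.run.hq, s.run.hr0, s.run.hh]
      exact s.run.qr) 1 hB1 s.f2.runs s.f2.xs
    rw [s.run.hm, s.run.hh] at h1
    push_cast at h1
    have h2 : X * (h / B) ≤ κ / 2 * h := by
      have e1 : X / B ≤ κ / 2 := by
        rw [div_le_div_iff₀ hB0 two_pos]
        rw [div_le_iff₀ hκ] at hB2
        linarith
      have e2 : X * (h / B) = X / B * h := by ring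
      rw [e2]
      exact mul_le_mul_of_nonneg_right e1 (Nat.cast_nonneg _)
    have h3 : 6 * (m : ℝ) ≤ κ / 2 * h := by
      rw [div_le_iff₀ hκ] at hh2
      linarith
    have h4 : ((1 : ℝ) + 1) * (4 + (1 + 1) * (2 * σ.K1 + 3)) * (h / B) = X * (h / B) := by
      rw [hX]
      ring
    rw [h4] at h1
    linarith
  · intro z _ h2 h3
    have htop : s.a s.N = aN s.R s.R.n := az_top s.hi0
    exact kd_sw s hB1 (by omega) h3
  · intro z h1 h2 h3 h4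
    exact kd_diag s hB1 h1 h2 h3 h4

end Vale.Agent.P106.U.H404
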