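import Vale.Agent.P127.U.H404.Act
import Vale.Agent.P127.U.Lam.JL

/-!
# P106 / U / H404 : suprema over extensions, mixtures and events (helper404)

`Fc Ω A S` : the data of a functional on a law on `Ω` : admissible labels `Ok a ω`, reward `cost a ω`, shape `sh a`, price `La`
of the softness of the shape.

`G F P l Z = sup { H(l | W, Z) + E cost(W, ·) + La H(sh W | l, Z) }` over all extensions and random admissible labels `W`.

* `le_G`, `exists_near`, `GSet_bdd`, `GSet_ne` : calculus of the supremum;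
* `G_le_add` : change of the side information; `G_congr`, `G_anti`;
* `G_ext` : the functional of an extension;
* `G_cond_sum`, `G_le_cond_sum`, `G_ge_mix`, `G_le_mix` : mixtures;
* `G_event` : increments and events.
-/

set_option autoImplicit false

namespace Vale.Agent.P106.U.H404

open Finset Vale.Agent.P127 Vale.Agent.P127.Stk Vale.Agent.P127.U Vale.Agent.P127.U.JSB

/-- data of a functional : admissible labels, reward, shape, price of the softness of the shape -/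
structure Fc (Ω A S : Type*) where
  Ok : A → Ω → Prop
  cost : A → Ω → ℝ
  sh : A → S
  La : ℝ

section G

variable {Ω : Type} [Fintype Ω] {Λ A S ζ δ γ : Type*}

/-- the value of a random label on an extension `(P', π)` -/
noncomputable def gv (F : Fc Ω A S) {Ω' : Type} [Fintype Ω'] (P' : Law Ω') (π : Ω' → Ω) (l : Ω → Λ)
    (Z : Ω → ζ) (W : Ω' → A) : ℝ :=
  Stk.hc P' (fun ω => l (π ω)) (fun ω => (W ω, Z (π ω))) + P'.ex (fun ω => F.cost (W ω) (π ω)) +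
    F.La * Stk.hc P' (fun ω => F.sh (W ω)) (fun ω => (l (π ω), Z (π ω)))

/-- the values of all random admissible labels on all extensions -/
def GSet (F : Fc Ω A S) (P : Law Ω) (l : Ω → Λ) (Z : Ω → ζ) : Set ℝ :=
  {v | ∃ (Ω' : Type) (_ : Fintype Ω') (P' : Law Ω') (π : Ω' → Ω) (W : Ω' → A),
    (∀ ω, P'.pr π ω = P.w ω) ∧ (∀ ω, 0 < P'.w ω → F.Ok (W ω) (π ω)) ∧ v = gv F P' π l Z W}

/-- the functional -/
noncomputable def G (F : Fc Ω A S) (P : Law Ω) (l : Ω → Λ) (Z : Ω → ζ) : ℝ := sSup (GSet F P l Z)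

/-- regular data : there are admissible labels, the rewards are bounded, finitely many shapes -/
structure Reg (F : Fc Ω A S) (P : Law Ω) : Prop where
  ne : ∀ ω, 0 < P.w ω → ∃ a, F.Ok a ω
  bd : ∃ K : ℝ, ∀ ω a, 0 < P.w ω → F.Ok a ω → F.cost a ω ≤ K
  fin : ∃ E : Finset S, ∀ ω a, 0 < P.w ω → F.Ok a ω → F.sh a ∈ E
  La : 0 ≤ F.La

theorem supp_ext {Ω' : Type} [Fintype Ω'] {P' : Law Ω'} {P : Law Ω} {π : Ω' → Ω}
    (h : ∀ ω, P'.pr π ω = P.w ω) {ω : Ω'} (hω : 0 < P'.w ω) : 0 < P.w (π ω) := by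
  rw [← h]
  exact P'.pr_pos π hω

theorem GSet_bdd {F : Fc Ω A S} {P : Law Ω} (H : Reg F P) (l : Ω → Λ) (Z : Ω → ζ) :
    BddAbove (GSet F P l Z) := by
  obtain ⟨K, hK⟩ := H.bd
  obtain ⟨E, hE⟩ := H.fin
  refine ⟨P.H l + K + F.La * Real.log E.card, ?_⟩
  rintro v ⟨Ω', _, P', π, W, h1, h2, rfl⟩
  have a1 : Stk.hc P' (fun ω => l (π ω)) (fun ω => (W ω, Z (π ω))) ≤ P'.H (fun ω => l (π ω)) :=
    hc_le_H _ _ _
  have a2 : P'.H (fun ω => l (π ω)) = P.H l := H_law_aux P' P π h1 l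
  have a3 : P'.ex (fun ω => F.cost (W ω) (π ω)) ≤ K := by
    refine (P'.ex_mono (g := fun _ => K) fun ω hω => hK _ _ (supp_ext h1 hω) (h2 ω hω)).trans
      (le_of_eq ?_)
    rw [P'.ex_const]
  have a4 : Stk.hc P' (fun ω => F.sh (W ω)) (fun ω => (l (π ω), Z (π ω))) ≤ Real.log E.card :=
    (hc_le_H _ _ _).trans (U.H_le_log_finset P' _ _ E le_rfl
      fun ω hω => hE _ _ (supp_ext h1 hω) (h2 ω hω))
  have a5 := mul_le_mul_of_nonneg_left a4 H.La
  unfold gv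
  linarith

theorem pr_id' (P : Law Ω) (ω : Ω) : P.pr (fun ω => ω) ω = P.w ω := by
  classical
  unfold Law.pr
  rw [Finset.sum_filter, Finset.sum_eq_single ω]
  · simp
  · intro b _ hb
    rw [if_neg hb]
  · intro h
    exact absurd (Finset.mem_univ _) h

theorem exists_supp (P : Law Ω) : ∃ ω, 0 < P.w ω := by
  by_contra hcon
  push Not at hcon
  have h1 : ∑ ω, P.w ω = 0 := Finset.sum_eq_zero fun ω _ => le_antisymm (hcon ω) (P.nn ω)
  rw [P.sum_one] at h1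
  exact one_ne_zero h1

/-- there are admissible random labels on `Ω` itself -/
theorem exists_lab {F : Fc Ω A S} {P : Law Ω} (H : Reg F P) :
    ∃ W : Ω → A, ∀ ω, 0 < P.w ω → F.Ok (W ω) ω := by
  classical
  obtain ⟨ω0, h0⟩ := exists_supp P
  obtain ⟨a0, -⟩ := H.ne ω0 h0
  refine ⟨fun ω => if h : 0 < P.w ω then (H.ne ω h).choose else a0, fun ω hω => ?_⟩
  simp only [dif_pos hω]
  exact (H.ne ω hω).choose_spec

theorem GSet_ne {F : Fc Ω A S} {P : Law Ω} (H : Reg F P) (l : Ω → Λ) (Z : Ω → ζ) :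
    (GSet F P l Z).Nonempty := by
  obtain ⟨W, hW⟩ := exists_lab H
  exact ⟨_, Ω, inferInstance, P, fun ω => ω, W, pr_id' P, hW, rfl⟩

theorem le_G {F : Fc Ω A S} {P : Law Ω} (H : Reg F P) {l : Ω → Λ} {Z : Ω → ζ} {Ω' : Type}
    [Fintype Ω'] {P' : Law Ω'} {π : Ω' → Ω} {W : Ω' → A} (h1 : ∀ ω, P'.pr π ω = P.w ω)
    (h2 : ∀ ω, 0 < P'.w ω → F.Ok (W ω) (π ω)) : gv F P' π l Z W ≤ G F P l Z :=
  le_csSup (GSet_bdd H l Z) ⟨Ω', inferInstance, P', π, W, h1, h2, rfl⟩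

theorem G_le {F : Fc Ω A S} {P : Law Ω} (H : Reg F P) {l : Ω → Λ} {Z : Ω → ζ} {b : ℝ}
    (h : ∀ (Ω' : Type) [Fintype Ω'] (P' : Law Ω') (π : Ω' → Ω) (W : Ω' → A),
      (∀ ω, P'.pr π ω = P.w ω) → (∀ ω, 0 < P'.w ω → F.Ok (W ω) (π ω)) → gv F P' π l Z W ≤ b) :
    G F P l Z ≤ b := by
  refine csSup_le (GSet_ne H l Z) ?_
  rintro v ⟨Ω', _, P', π, W, h1, h2, rfl⟩
  exact h Ω' P' π W h1 h2

theorem exists_near {F : Fc Ω A S} {P : Law Ω} (H : Reg F P) (l : Ω → Λ) (Z : Ω → ζ) {ε : ℝ}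
    (hε : 0 < ε) :
    ∃ (Ω' : Type) (_ : Fintype Ω') (P' : Law Ω') (π : Ω' → Ω) (W : Ω' → A),
      (∀ ω, P'.pr π ω = P.w ω) ∧ (∀ ω, 0 < P'.w ω → F.Ok (W ω) (π ω)) ∧
      G F P l Z - ε ≤ gv F P' π l Z W := by
  obtain ⟨v, hv, hv2⟩ := exists_lt_of_lt_csSup (GSet_ne H l Z)
    (show G F P l Z - ε < sSup (GSet F P l Z) by
      show G F P l Z - ε < G F P l Z
      linarith)
  obtain ⟨Ω', iF, P', π, W, h1, h2, rfl⟩ := hv
  exact ⟨Ω', iF, P', π, W, h1, h2, hv2.le⟩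

/-- change of the side information -/
theorem G_le_add {F : Fc Ω A S} {P : Law Ω} (H : Reg F P) (l : Ω → Λ) (Z : Ω → ζ) (Z' : Ω → δ) :
    G F P l Z ≤ G F P l Z' + (1 + F.La) * Stk.hc P Z' Z := by
  refine G_le H fun Ω' _ P' π W h1 h2 => ?_
  have h3 := le_G H (l := l) (Z := Z') h1 h2
  have h4 := Stk.hc_le_add' P' (fun ω => l (π ω)) (fun ω => Z' (π ω)) (fun ω => (W ω, Z (π ω)))
  have h5 : Stk.hc P' (fun ω => l (π ω)) (fun ω => (Z' (π ω), W ω, Z (π ω))) ≤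
      Stk.hc P' (fun ω => l (π ω)) (fun ω => (W ω, Z' (π ω))) := by
    refine Stk.hc_mono_right P' _ fun ω ω' _ _ e => ?_
    simp only [Prod.mk.injEq] at e ⊢
    exact ⟨e.2.1, e.1⟩
  have h6 : Stk.hc P' (fun ω => Z' (π ω)) (fun ω => (W ω, Z (π ω))) ≤
      Stk.hc P' (fun ω => Z' (π ω)) (fun ω => Z (π ω)) :=
    Stk.hc_mono_right P' _ fun ω ω' _ _ e => congrArg Prod.snd e
  have h7 : Stk.hc P' (fun ω => Z' (π ω)) (fun ω => Z (π ω)) = Stk.hc P Z' Z :=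
    Stk.hc_of_law P' P π h1 Z' Z
  have g4 := Stk.hc_le_add' P' (fun ω => F.sh (W ω)) (fun ω => Z' (π ω))
    (fun ω => (l (π ω), Z (π ω)))
  have g5 : Stk.hc P' (fun ω => F.sh (W ω)) (fun ω => (Z' (π ω), l (π ω), Z (π ω))) ≤
      Stk.hc P' (fun ω => F.sh (W ω)) (fun ω => (l (π ω), Z' (π ω))) := by
    refine Stk.hc_mono_right P' _ fun ω ω' _ _ e => ?_
    simp only [Prod.mk.injEq] at e ⊢
    exact ⟨e.2.1, e.1⟩
  have g6 : Stk.hc P' (fun ω => Z' (π ω)) (fun ω => (l (π ω), Z (π ω))) ≤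
      Stk.hc P' (fun ω => Z' (π ω)) (fun ω => Z (π ω)) :=
    Stk.hc_mono_right P' _ fun ω ω' _ _ e => congrArg Prod.snd e
  have g7 : Stk.hc P' (fun ω => F.sh (W ω)) (fun ω => (l (π ω), Z (π ω))) ≤
      Stk.hc P' (fun ω => F.sh (W ω)) (fun ω => (l (π ω), Z' (π ω))) + Stk.hc P Z' Z := by linarith
  have g8 := mul_le_mul_of_nonneg_left g7 H.La
  unfold gv at h3 ⊢
  linarith

/-- less side information, larger functional -/
theorem G_anti' {F : Fc Ω A S} {P : Law Ω} (H : Reg F P) (l : Ω → Λ) (Z : Ω → ζ) (Z' : Ω → δ)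
    (h : ∀ ω ω', 0 < P.w ω → 0 < P.w ω' → Z ω = Z ω' → Z' ω = Z' ω') :
    G F P l Z ≤ G F P l Z' := by
  have h1 := G_le_add H l Z Z'
  rw [Stk.hc_zero P h, mul_zero, add_zero] at h1
  exact h1

theorem G_anti {F : Fc Ω A S} {P : Law Ω} (H : Reg F P) (l : Ω → Λ) (Z : Ω → ζ) (D : Ω → δ) :
    G F P l (fun ω => (Z ω, D ω)) ≤ G F P l Z :=
  G_anti' H l _ _ fun _ _ _ _ e => congrArg Prod.fst e

theorem G_congr {F : Fc Ω A S} {P : Law Ω} (H : Reg F P) (l : Ω → Λ) (Z : Ω → ζ) (Z' : Ω → δ)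
    (h : ∀ ω ω', 0 < P.w ω → 0 < P.w ω' → (Z ω = Z ω' ↔ Z' ω = Z' ω')) :
    G F P l Z = G F P l Z' :=
  le_antisymm (G_anti' H l Z Z' fun ω ω' p p' => (h ω ω' p p').1)
    (G_anti' H l Z' Z fun ω ω' p p' => (h ω ω' p p').2)

/-- change of the rewards -/
theorem G_mono {F F' : Fc Ω A S} {P : Law Ω} (H : Reg F P) (H' : Reg F' P) (l : Ω → Λ) (Z : Ω → ζ)
    {K : ℝ} (hOk : ∀ ω a, 0 < P.w ω → F.Ok a ω → F'.Ok a ω)
    (hc : ∀ ω a, 0 < P.w ω → F.Ok a ω → F.cost a ω ≤ F'.cost a ω + K) (hs : F.sh = F'.sh)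
    (hL : F.La ≤ F'.La) : G F P l Z ≤ G F' P l Z + K := by
  refine G_le H fun Ω' _ P' π W h1 h2 => ?_
  have h3 := le_G H' (l := l) (Z := Z) h1 fun ω hω => hOk _ _ (supp_ext h1 hω) (h2 ω hω)
  have h4 : P'.ex (fun ω => F.cost (W ω) (π ω)) ≤ P'.ex (fun ω => F'.cost (W ω) (π ω) + K) :=
    P'.ex_mono fun ω hω => hc _ _ (supp_ext h1 hω) (h2 ω hω)
  rw [P'.ex_add, P'.ex_const] at h4
  have h5 := mul_le_mul_of_nonneg_right hL
    (Stk.hc_nonneg P' (fun ω => F.sh (W ω)) (fun ω => (l (π ω), Z (π ω))))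
  unfold gv at h3 ⊢
  rw [hs] at h5 ⊢
  linarith

/-- the data on an extension -/
def Fc.comp (F : Fc Ω A S) {Ω₁ : Type} (π : Ω₁ → Ω) : Fc Ω₁ A S :=
  ⟨fun a ω => F.Ok a (π ω), fun a ω => F.cost a (π ω), F.sh, F.La⟩

theorem Reg.comp {F : Fc Ω A S} {P : Law Ω} (H : Reg F P) {Ω₁ : Type} [Fintype Ω₁] {P₁ : Law Ω₁}
    {π : Ω₁ → Ω} (h : ∀ ω, P₁.pr π ω = P.w ω) : Reg (F.comp π) P₁ where
  ne := fun ω hω => H.ne (π ω) (supp_ext h hω)
  bd := by
    obtain ⟨K, hK⟩ := H.bd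
    exact ⟨K, fun ω a hω ha => hK (π ω) a (supp_ext h hω) ha⟩
  fin := by
    obtain ⟨E, hE⟩ := H.fin
    exact ⟨E, fun ω a hω ha => hE (π ω) a (supp_ext h hω) ha⟩
  La := H.La

theorem Reg.cond {F : Fc Ω A S} {P : Law Ω} (H : Reg F P) (C : Ω → γ) (z : γ) :
    Reg F (P.cond C z) where
  ne := fun ω hω => H.ne ω (cond_supp P C z hω)
  bd := by
    obtain ⟨K, hK⟩ := H.bd
    exact ⟨K, fun ω a hω ha => hK ω a (cond_supp P C z hω) ha⟩
  fin := by
    obtain ⟨E, hE⟩ := H.fin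
    exact ⟨E, fun ω a hω ha => hE ω a (cond_supp P C z hω) ha⟩
  La := H.La

end G

section mix

variable {Ω : Type} [Fintype Ω] {Λ A S ζ : Type*} {γ : Type}

/-- the functional given `(Z, C)` is at least the average of the functionals given `Z` for the values of `C`, up to `ε` -/
theorem G_cond_sum {F : Fc Ω A S} {P : Law Ω} (H : Reg F P) (l : Ω → Λ) (Z : Ω → ζ) (C : Ω → γ)
    {ε : ℝ} (hε : 0 < ε) :
    ∑ z ∈ img C, P.pr C z * G F (P.cond C z) l Z ≤ G F P l (fun ω => (Z ω, C ω)) + ε := by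
  classical
  have hnear := fun z : {z // z ∈ img C} => exists_near (H.cond C z.1) l Z hε
  choose Ω' iF Q π W g1 g2 g3 using hnear
  have a0 : ∀ z : {z // z ∈ img C}, 0 ≤ P.pr C z.1 := fun z => P.pr_nonneg _ _
  have a1 : ∑ z : {z // z ∈ img C}, P.pr C z.1 = 1 := by
    rw [Finset.sum_coe_sort (img C) (fun z => P.pr C z)]
    exact P.sum_pr_image C
  set M : Law (Σ z, Ω' z) := sumL (fun z : {z // z ∈ img C} => P.pr C z.1) a0 a1 Q with hM
  have hMw : ∀ p : (Σ z, Ω' z), M.w p = P.pr C p.1.1 * (Q p.1).w p.2 := fun p => rfl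
  set ρ : (Σ z, Ω' z) → Ω := fun p => π p.1 p.2 with hρ
  set W' : (Σ z, Ω' z) → A := fun p => W p.1 p.2 with hW'
  have hpos : ∀ p : (Σ z, Ω' z), 0 < M.w p → 0 < P.pr C p.1.1 ∧ 0 < (Q p.1).w p.2 := by
    intro p hp
    rw [hMw] at hp
    have b1 := P.pr_nonneg C p.1.1
    have b2 := (Q p.1).nn p.2
    constructor
    · rcases b1.eq_or_lt with h2 | h2
      · rw [← h2, zero_mul] at hp
        exact absurd hp (lt_irrefl 0)
      · exact h2
    · rcases b2.eq_or_lt with h2 | h2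
      · rw [← h2, mul_zero] at hp
        exact absurd hp (lt_irrefl 0)
      · exact h2
  have hC : ∀ p : (Σ z, Ω' z), 0 < M.w p → C (ρ p) = p.1.1 := by
    intro p hp
    obtain ⟨b1, b2⟩ := hpos p hp
    refine cond_supp' P C p.1.1 b1 ?_
    rw [← g1 p.1 (ρ p)]
    exact (Q p.1).pr_pos (π p.1) b2
  have hpr : ∀ ω, M.pr ρ ω = P.w ω := by
    intro ω
    rw [hM, sumL_pr]
    have e : ∀ z : {z // z ∈ img C}, (Q z).pr (fun ω' => ρ ⟨z, ω'⟩) ω = (P.cond C z.1).w ω :=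
      fun z => g1 z ω
    simp only [e]
    rw [Finset.sum_coe_sort (img C) (fun z => P.pr C z * (P.cond C z).w ω)]
    exact cond_avg P C ω
  have hsub : ∀ p, 0 < M.w p → F.Ok (W' p) (ρ p) := fun p hp => g2 p.1 p.2 (hpos p hp).2
  have hle := le_G H (l := l) (Z := fun ω => (Z ω, C ω)) hpr hsub
  have e1 : Stk.hc M (fun p => l (ρ p)) (fun p => ((W' p, Z (ρ p)), p.1)) ≤
      Stk.hc M (fun p => l (ρ p)) (fun p => (W' p, (Z (ρ p), C (ρ p)))) := by
    refine hc_mono_right M _ ?_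
    intro p p' hp hp' e
    simp only [Prod.mk.injEq] at e
    show (W' p, (Z (ρ p), C (ρ p))) = (W' p', (Z (ρ p'), C (ρ p')))
    rw [hC p hp, hC p' hp', e.1.1, e.1.2, e.2]
  have e2 := sumL_hc (a := fun z : {z // z ∈ img C} => P.pr C z.1) (h0 := a0) (h1 := a1)
    (Q := Q) (fun p => l (ρ p)) (fun p => (W' p, Z (ρ p)))
  have e3 := sumL_ex (a := fun z : {z // z ∈ img C} => P.pr C z.1) (h0 := a0) (h1 := a1)
    (Q := Q) (fun p => F.cost (W' p) (ρ p))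
  have f1 : Stk.hc M (fun p => F.sh (W' p)) (fun p => ((l (ρ p), Z (ρ p)), p.1)) ≤
      Stk.hc M (fun p => F.sh (W' p)) (fun p => (l (ρ p), (Z (ρ p), C (ρ p)))) := by
    refine hc_mono_right M _ ?_
    intro p p' hp hp' e
    simp only [Prod.mk.injEq] at e
    show (l (ρ p), (Z (ρ p), C (ρ p))) = (l (ρ p'), (Z (ρ p'), C (ρ p')))
    rw [hC p hp, hC p' hp', e.1.1, e.1.2, e.2]
  have f2 := sumL_hc (a := fun z : {z // z ∈ img C} => P.pr C z.1) (h0 := a0) (h1 := a1)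
    (Q := Q) (fun p => F.sh (W' p)) (fun p => (l (ρ p), Z (ρ p)))
  rw [← hM] at e2 e3 f2
  rw [e2] at e1
  rw [f2] at f1
  have f3 := mul_le_mul_of_nonneg_left f1 H.La
  have hge : ∑ z : {z // z ∈ img C}, P.pr C z.1 * gv F (Q z) (π z) l Z (W z) ≤
      gv F M ρ l (fun ω => (Z ω, C ω)) W' := by
    unfold gv
    rw [e3]
    have e4 : ∑ z : {z // z ∈ img C}, P.pr C z.1 *
        (Stk.hc (Q z) (fun ω => l (π z ω)) (fun ω => (W z ω, Z (π z ω))) +
          (Q z).ex (fun ω => F.cost (W z ω) (π z ω)) +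
          F.La * Stk.hc (Q z) (fun ω => F.sh (W z ω)) (fun ω => (l (π z ω), Z (π z ω)))) =
        ∑ z : {z // z ∈ img C}, P.pr C z.1 * Stk.hc (Q z) (fun ω => l (ρ ⟨z, ω⟩))
          (fun ω => (W' ⟨z, ω⟩, Z (ρ ⟨z, ω⟩))) +
        ∑ z : {z // z ∈ img C}, P.pr C z.1 * (Q z).ex (fun ω => F.cost (W' ⟨z, ω⟩) (ρ ⟨z, ω⟩)) +
        F.La * ∑ z : {z // z ∈ img C}, P.pr C z.1 * Stk.hc (Q z) (fun ω => F.sh (W' ⟨z, ω⟩))
          (fun ω => (l (ρ ⟨z, ω⟩), Z (ρ ⟨z, ω⟩))) := by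
      rw [Finset.mul_sum, ← Finset.sum_add_distrib, ← Finset.sum_add_distrib]
      exact Finset.sum_congr rfl fun z _ => by ring
    rw [e4]
    linarith
  have hav : ∑ z ∈ img C, P.pr C z * G F (P.cond C z) l Z - ε ≤
      ∑ z : {z // z ∈ img C}, P.pr C z.1 * gv F (Q z) (π z) l Z (W z) := by
    have e : ∑ z ∈ img C, P.pr C z * G F (P.cond C z) l Z - ε =
        ∑ z : {z // z ∈ img C}, P.pr C z.1 * (G F (P.cond C z.1) l Z - ε) := by
      simp only [mul_sub, Finset.sum_sub_distrib]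
      rw [← Finset.sum_mul, a1, one_mul, Finset.sum_coe_sort (img C)
        (fun z => P.pr C z * G F (P.cond C z) l Z)]
    rw [e]
    exact Finset.sum_le_sum fun z _ => mul_le_mul_of_nonneg_left (g3 z) (a0 z)
  linarith

end mix

section mix'

variable {Ω : Type} [Fintype Ω] {Λ A S ζ γ : Type*}

/-- values of a label given `(Z, C)` are averages over the values of `C` -/
theorem gv_cond_sum (F : Fc Ω A S) {Ω' : Type} [Fintype Ω'] (P' : Law Ω') (π : Ω' → Ω) (l : Ω → Λ)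
    (Z : Ω → ζ) (C : Ω → γ) (W : Ω' → A) :
    gv F P' π l (fun ω => (Z ω, C ω)) W =
      ∑ z ∈ img (fun ω => C (π ω)), P'.pr (fun ω => C (π ω)) z *
        gv F (P'.cond (fun ω => C (π ω)) z) π l Z W := by
  set C' : Ω' → γ := fun ω => C (π ω) with hC'
  have a1 : Stk.hc P' (fun ω => l (π ω)) (fun ω => (W ω, (Z (π ω), C (π ω)))) =
      Stk.hc P' (fun ω => l (π ω)) (fun ω => ((W ω, Z (π ω)), C' ω)) := by
    refine le_antisymm ?_ ?_
    · refine Stk.hc_mono_right P' _ fun ω ω' _ _ e => ?_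
      simp only [Prod.mk.injEq, hC'] at e ⊢
      exact ⟨⟨e.1, e.2.1⟩, e.2.2⟩
    · refine Stk.hc_mono_right P' _ fun ω ω' _ _ e => ?_
      simp only [Prod.mk.injEq, hC'] at e ⊢
      exact ⟨e.1.1, e.1.2, e.2⟩
  have b1 : Stk.hc P' (fun ω => F.sh (W ω)) (fun ω => (l (π ω), (Z (π ω), C (π ω)))) =
      Stk.hc P' (fun ω => F.sh (W ω)) (fun ω => ((l (π ω), Z (π ω)), C' ω)) := by
    refine le_antisymm ?_ ?_
    · refine Stk.hc_mono_right P' _ fun ω ω' _ _ e => ?_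
      simp only [Prod.mk.injEq, hC'] at e ⊢
      exact ⟨⟨e.1, e.2.1⟩, e.2.2⟩
    · refine Stk.hc_mono_right P' _ fun ω ω' _ _ e => ?_
      simp only [Prod.mk.injEq, hC'] at e ⊢
      exact ⟨e.1.1, e.1.2, e.2⟩
  have a2 := hc_cond_sum P' (fun ω => l (π ω)) (fun ω => (W ω, Z (π ω))) C'
  have b2 := hc_cond_sum P' (fun ω => F.sh (W ω)) (fun ω => (l (π ω), Z (π ω))) C'
  have a3 := Lam.ex_cond_sum P' (fun ω => F.cost (W ω) (π ω)) C'
  unfold gv
  rw [a1, b1, a2, b2, ← a3, Finset.mul_sum, ← Finset.sum_add_distrib, ← Finset.sum_add_distrib]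
  exact Finset.sum_congr rfl fun z _ => by ring

/-- the functional given `(Z, C)` is at most the average of the functionals given `Z` for the values of `C` -/
theorem G_le_cond_sum {F : Fc Ω A S} {P : Law Ω} (H : Reg F P) (l : Ω → Λ) (Z : Ω → ζ)
    (C : Ω → γ) :
    G F P l (fun ω => (Z ω, C ω)) ≤ ∑ z ∈ img C, P.pr C z * G F (P.cond C z) l Z := by
  classical
  refine G_le H fun Ω' _ P' π W h1 h2 => ?_
  set C' : Ω' → γ := fun ω => C (π ω) with hC'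
  rw [gv_cond_sum]
  have hsub : img C' ⊆ img C := by
    intro z hz
    obtain ⟨ω, rfl⟩ := mem_img.1 hz
    exact mem_img.2 ⟨π ω, rfl⟩
  have hprz : ∀ z, P'.pr C' z = P.pr C z := fun z => Stk.pr_law_aux P' P π h1 C z
  have e2 : ∑ z ∈ img C', P.pr C z * G F (P.cond C z) l Z =
      ∑ z ∈ img C, P.pr C z * G F (P.cond C z) l Z := by
    refine Finset.sum_subset hsub fun z _ hz => ?_
    have : P.pr C z = 0 := by
      rw [← hprz z]
      unfold Law.pr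
      refine Finset.sum_eq_zero fun ω hω => ?_
      have e : C' ω = z := by simpa using hω
      exact absurd (mem_img.2 ⟨ω, e⟩) hz
    rw [this, zero_mul]
  rw [← e2]
  refine Finset.sum_le_sum fun z _ => ?_
  rw [hprz z]
  rcases (P.pr_nonneg C z).eq_or_lt with h0 | h0
  · rw [← h0, zero_mul, zero_mul]
  · refine mul_le_mul_of_nonneg_left ?_ h0.le
    exact le_G (H.cond C z) (Lam.cond_ext h1 C h0) fun ω hω => h2 ω (cond_supp P' C' z hω)

/-- **mixtures**, upper bound -/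
theorem G_le_mix {F : Fc Ω A S} {P : Law Ω} (H : Reg F P) (l : Ω → Λ) (Z : Ω → ζ) (C : Ω → γ) :
    G F P l Z ≤ ∑ z ∈ img C, P.pr C z * G F (P.cond C z) l Z + (1 + F.La) * P.H C := by
  have h1 := G_le_add H l Z (fun ω => (Z ω, C ω))
  have h2 := G_le_cond_sum H l Z C
  have h3 : Stk.hc P (fun ω => (Z ω, C ω)) Z ≤ P.H C := by
    refine (Stk.hc_mono_left P (X' := C) fun ω ω' _ _ e => ?_).trans (Stk.hc_le_H P _ _)
    simp only [Prod.mk.injEq] at e ⊢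
    exact ⟨e.2, e.1⟩
  have h4 := mul_le_mul_of_nonneg_left h3 (show 0 ≤ 1 + F.La by linarith [H.La])
  linarith

end mix'

section event

variable {Ω : Type} [Fintype Ω] {Λ A S ζ : Type*}

/-- **mixtures**, lower bound -/
theorem G_ge_mix {γ : Type} {F : Fc Ω A S} {P : Law Ω} (H : Reg F P) (l : Ω → Λ) (Z : Ω → ζ)
    (C : Ω → γ) {ε : ℝ} (hε : 0 < ε) :
    ∑ z ∈ img C, P.pr C z * G F (P.cond C z) l Z ≤ G F P l Z + ε := by
  have h1 := G_cond_sum H l Z C hε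
  have h2 := G_anti H l Z C
  linarith

theorem H_bool_le (P : Law Ω) (g : Ω → Bool) : P.H g ≤ Real.log 2 := by
  have := P.H_le_log_card g
  simpa using this

/-- **increments and events** : `F` the functional at the lower level, `F'` at the upper level -/
theorem G_event {A' S' ζ' : Type*} {F : Fc Ω A S} {F' : Fc Ω A' S'} {P : Law Ω} (H : Reg F P)
    (H' : Reg F' P) (l : Ω → Λ) (Z : Ω → ζ) (Z' : Ω → ζ') (g : Ω → Bool) {B1 B2 : ℝ}
    (h1 : 0 < P.pr g true → G F' (P.cond g true) l Z' ≤ G F (P.cond g true) l Z + B1)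
    (h2 : 0 < P.pr g false → G F' (P.cond g false) l Z' ≤ G F (P.cond g false) l Z + B2) :
    G F' P l Z' ≤ G F P l Z + P.pr g true * B1 + P.pr g false * B2 +
      ((1 + F'.La) * Real.log 2 + 1) := by
  have a1 := G_le_mix H' l Z' g
  have a2 := G_ge_mix H l Z g (one_pos)
  rw [Act.sum_bool P g fun z => G F' (P.cond g z) l Z'] at a1
  rw [Act.sum_bool P g fun z => G F (P.cond g z) l Z] at a2
  have a3 := mul_le_mul_of_nonneg_left (H_bool_le P g) (show 0 ≤ 1 + F'.La by linarith [H'.La])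
  have a4 : P.pr g true * G F' (P.cond g true) l Z' ≤
      P.pr g true * (G F (P.cond g true) l Z + B1) := by
    rcases (P.pr_nonneg g true).eq_or_lt with h0 | h0
    · rw [← h0, zero_mul, zero_mul]
    · exact mul_le_mul_of_nonneg_left (h1 h0) h0.le
  have a5 : P.pr g false * G F' (P.cond g false) l Z' ≤
      P.pr g false * (G F (P.cond g false) l Z + B2) := by
    rcases (P.pr_nonneg g false).eq_or_lt with h0 | h0
    · rw [← h0, zero_mul, zero_mul]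
    · exact mul_le_mul_of_nonneg_left (h2 h0) h0.le
  linarith

end event

section ext

variable {Ω : Type} [Fintype Ω] {Λ A S ζ : Type*}

/-- labels on extensions : the set of values does not change -/
theorem GSet_ext (F : Fc Ω A S) {Ω' : Type} [Fintype Ω'] (P' : Law Ω') (P : Law Ω) (π : Ω' → Ω)
    (h : ∀ ω, P'.pr π ω = P.w ω) (l : Ω → Λ) (Z : Ω → ζ) :
    GSet (F.comp π) P' (fun ω => l (π ω)) (fun ω => Z (π ω)) = GSet F P l Z := by
  ext v
  constructor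
  · rintro ⟨Ω'', _, P'', π', W, h1, h2, rfl⟩
    refine ⟨Ω'', inferInstance, P'', fun ω => π (π' ω), W, ?_, h2, rfl⟩
    intro ω
    have := Stk.pr_law_aux P'' P' π' h1 π ω
    rw [← h ω, ← this]
    rfl
  · rintro ⟨Ω'', _, P'', π', W, h1, h2, rfl⟩
    obtain ⟨Ω₃, _, Q, π₁, π₂, g1, g2, g3, g4⟩ := Stk.glue_exists P'' P' π' π
      (fun s => (h1 s).trans (h s).symm)
    have e0 : ∀ ω, π (π₂ ω) = π' (π₁ ω) := fun ω => (g1 ω).symm
    refine ⟨Ω₃, inferInstance, Q, π₂, fun ω => W (π₁ ω), g3, ?_, ?_⟩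
    · intro ω hω
      have hpos : 0 < P''.w (π₁ ω) := by
        rw [← g2]
        exact Q.pr_pos π₁ hω
      show F.Ok (W (π₁ ω)) (π (π₂ ω))
      rw [e0]
      exact h2 (π₁ ω) hpos
    · unfold gv Fc.comp
      simp only [e0]
      have e1 := Stk.hc_of_law Q P'' π₁ g2 (fun ω => l (π' ω)) (fun ω => (W ω, Z (π' ω)))
      have e2 := Stk.ex_law_aux Q P'' π₁ g2 (fun ω => F.cost (W ω) (π' ω))
      have e3 := Stk.hc_of_law Q P'' π₁ g2 (fun ω => F.sh (W ω)) (fun ω => (l (π' ω), Z (π' ω)))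
      rw [← e1, ← e2, ← e3]
      rfl

theorem G_ext (F : Fc Ω A S) {Ω' : Type} [Fintype Ω'] (P' : Law Ω') (P : Law Ω) (π : Ω' → Ω)
    (h : ∀ ω, P'.pr π ω = P.w ω) (l : Ω → Λ) (Z : Ω → ζ) :
    G (F.comp π) P' (fun ω => l (π ω)) (fun ω => Z (π ω)) = G F P l Z := by
  unfold G
  rw [GSet_ext F P' P π h]

end ext

end Vale.Agent.P106.U.H404
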