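import Vale.Agent.P106.U.H404.ActX
import Vale.Agent.P106.U.H416.WinX
import Vale.Agent.P106.U.H513.Ext

/-!
# P106 / U / H404 : activity, unconditional (helper404)
-/

set_option autoImplicit false

namespace Vale.Agent.P106.U.H404

/-- **ACT**, path form -/
theorem actX : PActX := pActX H513.pExtX H416.pWinX H416.pAbs

/-- **ACT**, one block -/
theorem actBlk : PActBlk := pActBlk H513.pExtX H416.pWinX

end Vale.Agent.P106.U.H404
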