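import Vale.Agent.P106.U.H404.Abs
import Vale.Agent.P106.U.H416.Defs

/-!
# P106 / U / H404 : the functional `XX` as an instance of `G` (helper404)

`fcX c lam k La l t e L a` : the data of `XX c lam k La P l t C e L a` (helper416's `U/H416/Defs`).

* `valX_eq`, `XX_eq`, `X_eq`;
* `regX` : regular data for `a ≤ L`;
* `XX_le_mix`, `XX_ge_mix`, `XX_anti`, `XX_ext`, `XX_event`.
-/

set_option autoImplicit false

namespace Vale.Agent.P106.U.H404

open Finset Vale.Agent.P127 Vale.Agent.P127.Stk Vale.Agent.P127.U Vale.Agent.P127.U.JSB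
open Vale.Agent.P106.W Vale.Agent.P106.K Vale.Agent.P106.U
open Vale.Agent.P122.C2 (fn)

/-- the data of `XX` -/
noncomputable def fcX {Ω : Type} (c lam k La : ℝ) (l : Ω → Ry) (t : Ω → ℝ) (e : Ω → ℕ × ℕ) (L a : ℕ) :
    Fc Ω Cbx (ℝ × ℝ) where
  Ok B ω := LbOk c L a B (l ω) (t ω)
  cost B ω := 3 * a * Real.log 2 - ((3 + lam) * Real.log B.u2 + (1 - lam) * Real.log B.u1) -
    k * dsh B (e ω)
  sh := shp
  La := La

section finite

variable {Ω : Type} [Fintype Ω] {γ : Type}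

theorem valX_eq (c lam k La : ℝ) {Ω' : Type} [Fintype Ω'] (P' : Law Ω') (π : Ω' → Ω) (l : Ω → Ry)
    (t : Ω → ℝ) (C : Ω → γ) (e : Ω → ℕ × ℕ) (L a : ℕ) (W : Ω' → Cbx) :
    valX lam k La P' (fun ω => l (π ω)) (fun ω => t (π ω)) (fun ω => C (π ω)) a (fun ω => e (π ω)) W =
      gv (fcX c lam k La l t e L a) P' π l (fun ω => (fl1 a (t ω), C ω)) W := by
  unfold valX val gv fcX
  simp only
  rw [P'.ex_sub, P'.ex_sub, P'.ex_const, P'.ex_const_mul]
  ring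

theorem xSet_eq (c lam k La : ℝ) (P : Law Ω) (l : Ω → Ry) (t : Ω → ℝ) (C : Ω → γ) (e : Ω → ℕ × ℕ)
    (L a : ℕ) :
    xSet c lam k La P l t C e L a =
      GSet (fcX c lam k La l t e L a) P l (fun ω => (fl1 a (t ω), C ω)) := by
  ext v
  constructor
  · rintro ⟨Ω', i, P', π, W, h1, h2, rfl⟩
    exact ⟨Ω', i, P', π, W, h1, h2, valX_eq c lam k La P' π l t C e L a W⟩
  · rintro ⟨Ω', i, P', π, W, h1, h2, rfl⟩
    exact ⟨Ω', i, P', π, W, h1, h2, (valX_eq c lam k La P' π l t C e L a W).symm⟩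

theorem XX_eq (c lam k La : ℝ) (P : Law Ω) (l : Ω → Ry) (t : Ω → ℝ) (C : Ω → γ) (e : Ω → ℕ × ℕ)
    (L a : ℕ) :
    XX c lam k La P l t C e L a =
      G (fcX c lam k La l t e L a) P l (fun ω => (fl1 a (t ω), C ω)) := by
  unfold XX G
  rw [xSet_eq]

/-- the plain functional -/
theorem X_eq (c lam : ℝ) (P : Law Ω) (l : Ω → Ry) (t : Ω → ℝ) (C : Ω → γ) (e : Ω → ℕ × ℕ) (L a : ℕ) :
    X c lam P l t C L a = XX c lam 0 0 P l t C e L a := by
  unfold X XX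
  congr 1
  ext v
  constructor
  · rintro ⟨Ω', i, P', π, W, h1, h2, rfl⟩
    exact ⟨Ω', i, P', π, W, h1, h2, by unfold valX; ring⟩
  · rintro ⟨Ω', i, P', π, W, h1, h2, rfl⟩
    exact ⟨Ω', i, P', π, W, h1, h2, by unfold valX; ring⟩

omit [Fintype Ω] in
/-- the trivial label : ball of radius `1` -/
theorem lbOk_triv {c : ℝ} (hc : 0 ≤ c) {L a : ℕ} (ha : a ≤ L) (l : Ry) (t : ℝ) :
    LbOk c L a ⟨0, 1, 1, 0, 0, (bl a l t).y, (bl a l t).s, (bl a l t).z⟩ l t where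
  sh := ⟨0, 0, by simp, by simp, le_rfl, by omega⟩
  α2 := by simpa using hc
  κ2 := by simpa using hc
  inn := by
    have h1 : fn 0 (0 : Fin 2 → ℝ) = 0 := by simp [fn]
    refine ⟨fun k => ?_, fun k => ?_, ?_, ?_, ?_⟩
    · simpa using hc
    · simpa using hc
    · simpa using hc
    · simpa [h1] using hc
    · simpa [h1] using hc

/-- the widths of a label -/
theorem lbOk_log {c : ℝ} {L a : ℕ} {B : Cbx} {l : Ry} {t : ℝ} (h : LbOk c L a B l t) :
    ∃ b R : ℕ, B.u2 = (1 / 2 : ℝ) ^ b ∧ B.u1 = (1 / 2 : ℝ) ^ R ∧ b ≤ R ∧ a + R ≤ L ∧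
      Real.log B.u2 = -(b * Real.log 2) ∧ Real.log B.u1 = -(R * Real.log 2) := by
  obtain ⟨b, R, h1, h2, h3, h4⟩ := h.sh
  refine ⟨b, R, h1, h2, h3, h4, ?_, ?_⟩
  · rw [h1, one_div, inv_pow, Real.log_inv, Real.log_pow]
  · rw [h2, one_div, inv_pow, Real.log_inv, Real.log_pow]

theorem dsh_nonneg (B : Cbx) (e : ℕ × ℕ) : 0 ≤ dsh B e := add_nonneg (abs_nonneg _) (abs_nonneg _)

theorem regX {c lam k La : ℝ} (hc : 0 ≤ c) (hk : 0 ≤ k) (hLa : 0 ≤ La) {L a : ℕ} (ha : a ≤ L)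
    (P : Law Ω) (l : Ω → Ry) (t : Ω → ℝ) (e : Ω → ℕ × ℕ) :
    Reg (fcX c lam k La l t e L a) P where
  ne := fun ω _ => ⟨_, lbOk_triv hc ha (l ω) (t ω)⟩
  bd := by
    refine ⟨3 * a * Real.log 2 + (|3 + lam| + |1 - lam|) * (L * Real.log 2), fun ω B _ hB => ?_⟩
    obtain ⟨b, R, -, -, h3, h4, h5, h6⟩ := lbOk_log (show LbOk c L a B (l ω) (t ω) from hB)
    show 3 * a * Real.log 2 - ((3 + lam) * Real.log B.u2 + (1 - lam) * Real.log B.u1) -
      k * dsh B (e ω) ≤ _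
    have h2 : 0 ≤ Real.log 2 := Real.log_nonneg (by norm_num)
    have hb : (b : ℝ) ≤ L := by exact_mod_cast (by omega : b ≤ L)
    have hR : (R : ℝ) ≤ L := by exact_mod_cast (by omega : R ≤ L)
    have g1 : (3 + lam) * (b * Real.log 2) ≤ |3 + lam| * (L * Real.log 2) :=
      mul_le_mul (le_abs_self _) (mul_le_mul_of_nonneg_right hb h2) (by positivity) (abs_nonneg _)
    have g2 : (1 - lam) * (R * Real.log 2) ≤ |1 - lam| * (L * Real.log 2) :=
      mul_le_mul (le_abs_self _) (mul_le_mul_of_nonneg_right hR h2) (by positivity) (abs_nonneg _)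
    have g3 := mul_nonneg hk (dsh_nonneg B (e ω))
    rw [h5, h6]
    linarith
  fin := by
    classical
    refine ⟨((Finset.range (L + 1)) ×ˢ (Finset.range (L + 1))).image
      fun p => ((1 / 2 : ℝ) ^ p.1, (1 / 2 : ℝ) ^ p.2), fun ω B _ hB => ?_⟩
    obtain ⟨b, R, h1, h2, h3, h4⟩ := (show LbOk c L a B (l ω) (t ω) from hB).sh
    show (B.u1, B.u2) ∈ _
    rw [h1, h2]
    refine Finset.mem_image.2 ⟨(R, b), ?_, rfl⟩
    simp only [Finset.mem_product, Finset.mem_range]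
    omega
  La := hLa

/-! ### consequences -/

variable {c lam k La : ℝ} {L a : ℕ} {P : Law Ω} {l : Ω → Ry} {t : Ω → ℝ} {e : Ω → ℕ × ℕ}

theorem le_XX (hc : 0 ≤ c) (hk : 0 ≤ k) (hLa : 0 ≤ La) (ha : a ≤ L) {C : Ω → γ} {Ω' : Type}
    [Fintype Ω'] {P' : Law Ω'} {π : Ω' → Ω} {W : Ω' → Cbx} (h1 : ∀ ω, P'.pr π ω = P.w ω)
    (h2 : ∀ ω, 0 < P'.w ω → LbOk c L a (W ω) (l (π ω)) (t (π ω))) :
    valX lam k La P' (fun ω => l (π ω)) (fun ω => t (π ω)) (fun ω => C (π ω)) a (fun ω => e (π ω)) W ≤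
      XX c lam k La P l t C e L a := by
  rw [valX_eq c, XX_eq]
  exact le_G (regX hc hk hLa ha P l t e) h1 h2

theorem XX_near (hc : 0 ≤ c) (hk : 0 ≤ k) (hLa : 0 ≤ La) (ha : a ≤ L) (C : Ω → γ) {ε : ℝ}
    (hε : 0 < ε) :
    ∃ (Ω' : Type) (_ : Fintype Ω') (P' : Law Ω') (π : Ω' → Ω) (W : Ω' → Cbx),
      (∀ ω, P'.pr π ω = P.w ω) ∧ (∀ ω, 0 < P'.w ω → LbOk c L a (W ω) (l (π ω)) (t (π ω))) ∧
      XX c lam k La P l t C e L a - ε ≤ valX lam k La P' (fun ω => l (π ω)) (fun ω => t (π ω))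
        (fun ω => C (π ω)) a (fun ω => e (π ω)) W := by
  obtain ⟨Ω', i, P', π, W, h1, h2, h3⟩ :=
    exists_near (regX (lam := lam) hc hk hLa ha P l t e) l (fun ω => (fl1 a (t ω), C ω)) hε
  refine ⟨Ω', i, P', π, W, h1, h2, ?_⟩
  rw [valX_eq c lam k La P' π l t C e L a W, XX_eq]
  exact h3

/-- change of the side information -/
theorem XX_le_add {δ : Type} (hc : 0 ≤ c) (hk : 0 ≤ k) (hLa : 0 ≤ La) (ha : a ≤ L) (C : Ω → γ)
    (D : Ω → δ) :
    XX c lam k La P l t C e L a ≤ XX c lam k La P l t D e L a +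
      (1 + La) * Stk.hc P D (fun ω => (fl1 a (t ω), C ω)) := by
  rw [XX_eq, XX_eq]
  have h := G_le_add (regX (lam := lam) hc hk hLa ha P l t e) l (fun ω => (fl1 a (t ω), C ω))
    (fun ω => (fl1 a (t ω), D ω))
  have h2 : Stk.hc P (fun ω => (fl1 a (t ω), D ω)) (fun ω => (fl1 a (t ω), C ω)) ≤
      Stk.hc P D (fun ω => (fl1 a (t ω), C ω)) := by
    have h3 : Stk.hc P (fun ω => (fl1 a (t ω), D ω)) (fun ω => (fl1 a (t ω), C ω)) ≤
        Stk.hc P (fun ω => (fl1 a (t ω), D ω)) (fun ω => (fl1 a (t ω), C ω)) := le_rfl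
    have h4 := Stk.hc_pair P (fun ω => fl1 a (t ω)) D (fun ω => (fl1 a (t ω), C ω))
    have h5 : Stk.hc P (fun ω => fl1 a (t ω)) (fun ω => (fl1 a (t ω), C ω)) = 0 :=
      Stk.hc_zero P fun _ _ _ _ e => congrArg Prod.fst e
    have h6 : Stk.hc P D (fun ω => (fl1 a (t ω), (fl1 a (t ω), C ω))) ≤
        Stk.hc P D (fun ω => (fl1 a (t ω), C ω)) :=
      Stk.hc_mono_right P _ fun _ _ _ _ e => congrArg Prod.snd e
    linarith
  have h7 := mul_le_mul_of_nonneg_left h2 (show 0 ≤ 1 + La by linarith)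
  have e1 : (fcX c lam k La l t e L a).La = La := rfl
  rw [e1] at h
  linarith

/-- less side information, larger functional -/
theorem XX_anti' {δ : Type} (hc : 0 ≤ c) (hk : 0 ≤ k) (hLa : 0 ≤ La) (ha : a ≤ L) (C : Ω → γ)
    (D : Ω → δ) (h : ∀ ω ω', 0 < P.w ω → 0 < P.w ω' → C ω = C ω' → D ω = D ω') :
    XX c lam k La P l t C e L a ≤ XX c lam k La P l t D e L a := by
  rw [XX_eq, XX_eq]
  refine G_anti' (regX (lam := lam) hc hk hLa ha P l t e) l _ _ fun ω ω' p p' e => ?_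
  simp only [Prod.mk.injEq] at e ⊢
  exact ⟨e.1, h ω ω' p p' e.2⟩

theorem XX_anti {δ : Type} (hc : 0 ≤ c) (hk : 0 ≤ k) (hLa : 0 ≤ La) (ha : a ≤ L) (C : Ω → γ)
    (D : Ω → δ) :
    XX c lam k La P l t (fun ω => (C ω, D ω)) e L a ≤ XX c lam k La P l t C e L a :=
  XX_anti' hc hk hLa ha _ _ fun _ _ _ _ e => congrArg Prod.fst e

/-- an extension does not change the functional -/
theorem XX_ext (C : Ω → γ) {Ω' : Type} [Fintype Ω'] (P' : Law Ω') (π : Ω' → Ω)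
    (h : ∀ ω, P'.pr π ω = P.w ω) :
    XX c lam k La P' (fun ω => l (π ω)) (fun ω => t (π ω)) (fun ω => C (π ω)) (fun ω => e (π ω)) L a =
      XX c lam k La P l t C e L a := by
  rw [XX_eq, XX_eq]
  exact G_ext (fcX c lam k La l t e L a) P' P π h l (fun ω => (fl1 a (t ω), C ω))

/-- **mixtures** : the functional given `(C, D)` is the average of the functionals given `C` for the values of `D` (`≥`) -/
theorem XX_cond_sum {δ : Type} (hc : 0 ≤ c) (hk : 0 ≤ k) (hLa : 0 ≤ La) (ha : a ≤ L) (C : Ω → γ)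
    (D : Ω → δ) {ε : ℝ} (hε : 0 < ε) :
    ∑ z ∈ img D, P.pr D z * XX c lam k La (P.cond D z) l t C e L a ≤
      XX c lam k La P l t (fun ω => (C ω, D ω)) e L a + ε := by
  simp only [XX_eq]
  have H := regX (lam := lam) hc hk hLa ha P l t e
  refine (G_cond_sum H l (fun ω => (fl1 a (t ω), C ω)) D hε).trans ?_
  have : G (fcX c lam k La l t e L a) P l (fun ω => ((fl1 a (t ω), C ω), D ω)) =
      G (fcX c lam k La l t e L a) P l (fun ω => (fl1 a (t ω), (C ω, D ω))) :=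
    G_congr H l _ _ fun ω ω' _ _ => by
      simp only [Prod.mk.injEq]
      tauto
  rw [this]

/-- **mixtures** (`≤`) -/
theorem XX_le_cond_sum {δ : Type} (hc : 0 ≤ c) (hk : 0 ≤ k) (hLa : 0 ≤ La) (ha : a ≤ L) (C : Ω → γ)
    (D : Ω → δ) :
    XX c lam k La P l t (fun ω => (C ω, D ω)) e L a ≤
      ∑ z ∈ img D, P.pr D z * XX c lam k La (P.cond D z) l t C e L a := by
  simp only [XX_eq]
  have H := regX (lam := lam) hc hk hLa ha P l t e
  refine le_trans (le_of_eq ?_) (G_le_cond_sum H l (fun ω => (fl1 a (t ω), C ω)) D)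
  exact G_congr H l _ _ fun ω ω' _ _ => by
    simp only [Prod.mk.injEq]
    tauto

/-- **mixtures**, upper bound -/
theorem XX_le_mix {δ : Type} (hc : 0 ≤ c) (hk : 0 ≤ k) (hLa : 0 ≤ La) (ha : a ≤ L) (C : Ω → γ)
    (D : Ω → δ) :
    XX c lam k La P l t C e L a ≤
      ∑ z ∈ img D, P.pr D z * XX c lam k La (P.cond D z) l t C e L a + (1 + La) * P.H D := by
  simp only [XX_eq]
  exact G_le_mix (regX (lam := lam) hc hk hLa ha P l t e) l (fun ω => (fl1 a (t ω), C ω)) D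

/-- **mixtures**, lower bound -/
theorem XX_ge_mix {δ : Type} (hc : 0 ≤ c) (hk : 0 ≤ k) (hLa : 0 ≤ La) (ha : a ≤ L) (C : Ω → γ)
    (D : Ω → δ) {ε : ℝ} (hε : 0 < ε) :
    ∑ z ∈ img D, P.pr D z * XX c lam k La (P.cond D z) l t C e L a ≤
      XX c lam k La P l t C e L a + ε := by
  simp only [XX_eq]
  exact G_ge_mix (regX (lam := lam) hc hk hLa ha P l t e) l (fun ω => (fl1 a (t ω), C ω)) D hε

/-- **increments and events** : levels `a`, `a'` -/
theorem XX_event {a' : ℕ} (hc : 0 ≤ c) (hk : 0 ≤ k) (hLa : 0 ≤ La) (ha : a ≤ L) (ha' : a' ≤ L)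
    (C : Ω → γ) (g : Ω → Bool) {B1 B2 : ℝ}
    (h1 : 0 < P.pr g true → XX c lam k La (P.cond g true) l t C e L a' ≤
      XX c lam k La (P.cond g true) l t C e L a + B1)
    (h2 : 0 < P.pr g false → XX c lam k La (P.cond g false) l t C e L a' ≤
      XX c lam k La (P.cond g false) l t C e L a + B2) :
    XX c lam k La P l t C e L a' ≤ XX c lam k La P l t C e L a + P.pr g true * B1 +
      P.pr g false * B2 + ((1 + La) * Real.log 2 + 1) := by
  simp only [XX_eq] at h1 h2 ⊢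
  exact G_event (regX (lam := lam) hc hk hLa ha P l t e) (regX (lam := lam) hc hk hLa ha' P l t e) l
    (fun ω => (fl1 a (t ω), C ω)) (fun ω => (fl1 a' (t ω), C ω)) g h1 h2

end finite

end Vale.Agent.P106.U.H404
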