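import Vale.Agent.P106.U.H404.FinR
import Vale.Agent.P106.U.H420.PhiI

/-!
# P106 / U / H404 : row [P1] from helper420's theorem for one window (helper404)

* `tel_evp` : macroscopic terms `T (h / m + 1) + Tc T'` are at most `Tc h / (B + 1) ^ 5`.
* `P1Win` : the theorem for one window;  **`rowP1_of : P1Win → RowP1`**.
-/

set_option autoImplicit false

namespace Vale.Agent.P106.U.H404.FinR

open Finset Vale.Agent.P127 Vale.Agent.P127.Stk Vale.Agent.P127.U Vale.Agent.P106.W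
open Vale.Agent.P127.U.CellD (q2 q2_pos q2_le q2_add)
open Vale.Agent.P106.U Vale.Agent.P106.U.H449
open Vale.Agent.P106.U.LinkR Vale.Agent.P106.U.InsL Vale.Agent.P106.U.InpC Vale.Agent.P106.U.StripL
open Vale.Agent.P106.U.H565 Vale.Agent.P106.U.H823.NumW
open Vale.Agent.P106.U.S3 (Run Pf)
open Vale.Agent.P106.U.H712.Fam (Win Vl Pl)
open Vale.Agent.P106.U.H61.Ext2 Vale.Agent.P106.U.H61.PS

/-- **the macroscopic terms** -/
theorem tel_evp (σ : S5.Cst) (cc : ℝ) (J M Md : ℕ) (T T' : ℕ → ℕ → ℕ → ℕ → ℕ → ℕ → ℕ → ℝ) :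
    Evp fun p X0 R0 h0 => ∀ (Ω : Type) [Fintype Ω] (x : Ctx σ cc J M Md p X0 R0 h0 Ω),
      T p.m p.B p.g p.D0 p.s p.L p.k1 * (x.c.I.h / p.m + 1) + p.Tc * T' p.m p.B p.g p.D0 p.s p.L p.k1 ≤
        p.Tc * x.c.I.h / ((p.B : ℝ) + 1) ^ 5 := by
  refine ⟨1, fun m hm => ⟨0, fun B _ => ⟨0, fun g _ => ⟨0, fun D0 _ s L _ _ _ => ⟨0, fun k1 _ => ?_⟩⟩⟩⟩⟩
  set t := |T m B g D0 s L k1| with ht
  set t' := |T' m B g D0 s L k1| with ht'
  have hB : (0 : ℝ) < ((B : ℝ) + 1) ^ 5 := by positivity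
  refine ⟨⌈4 * t * ((B : ℝ) + 1) ^ 5⌉₊, fun Tc hTc => ⟨0, 0, ⌈2 * t' * ((B : ℝ) + 1) ^ 5⌉₊ + 1, fun X0 R0 h0 _ _ hh0 => ?_⟩⟩
  intro Ω _ x
  have h1 : 4 * t * ((B : ℝ) + 1) ^ 5 ≤ Tc := (Nat.le_ceil _).trans (by exact_mod_cast hTc)
  have h2 : 2 * t' * ((B : ℝ) + 1) ^ 5 + 1 ≤ x.c.I.h := by
    have e1 := Nat.le_ceil (2 * t' * ((B : ℝ) + 1) ^ 5)
    have e2 : ((⌈2 * t' * ((B : ℝ) + 1) ^ 5⌉₊ + 1 : ℕ) : ℝ) ≤ x.c.I.h := by exact_mod_cast hh0.trans x.hh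
    push_cast at e2
    linarith
  have t0 : 0 ≤ t := abs_nonneg _
  have t0' : 0 ≤ t' := abs_nonneg _
  have hh1 : (1 : ℝ) ≤ x.c.I.h := by
    have : 0 ≤ 2 * t' * ((B : ℝ) + 1) ^ 5 := by positivity
    linarith
  have hm1 : (1 : ℝ) ≤ m := by exact_mod_cast hm
  have hT0 : (0 : ℝ) ≤ Tc := Nat.cast_nonneg _
  have e3 : (x.c.I.h : ℝ) / m + 1 ≤ 2 * x.c.I.h := by
    have : (x.c.I.h : ℝ) / m ≤ x.c.I.h := div_le_self (by linarith) hm1
    linarith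
  have e4 : (0 : ℝ) ≤ (x.c.I.h : ℝ) / m + 1 := by positivity
  show T m B g D0 s L k1 * (x.c.I.h / m + 1) + Tc * T' m B g D0 s L k1 ≤ Tc * x.c.I.h / ((B : ℝ) + 1) ^ 5
  have a1 : T m B g D0 s L k1 * (x.c.I.h / m + 1) ≤ t * (2 * x.c.I.h) :=
    (mul_le_mul_of_nonneg_right (le_abs_self _) e4).trans (mul_le_mul_of_nonneg_left e3 t0)
  have a2 : Tc * T' m B g D0 s L k1 ≤ Tc * t' := mul_le_mul_of_nonneg_left (le_abs_self _) hT0
  rw [le_div_iff₀ hB]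
  have a3 : t * (2 * x.c.I.h) * ((B : ℝ) + 1) ^ 5 ≤ Tc * x.c.I.h / 2 := by
    have := mul_le_mul_of_nonneg_right h1 (show (0 : ℝ) ≤ x.c.I.h / 2 by linarith)
    linarith
  have a4 : Tc * t' * ((B : ℝ) + 1) ^ 5 ≤ Tc * x.c.I.h / 2 := by
    have := mul_le_mul_of_nonneg_left (show 2 * t' * ((B : ℝ) + 1) ^ 5 ≤ x.c.I.h by linarith) (show (0 : ℝ) ≤ Tc / 2 by linarith)
    linarith
  have a5 := mul_le_mul_of_nonneg_right (add_le_add a1 a2) hB.le
  linarith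

/-- **helper420's theorem for one window** -/
def P1Win : Prop :=
  ∀ σ : S5.Cst, σ.Ok → ∀ (K Cψ cc : ℝ) (J M Md : ℕ), Cnd K Cψ cc J M Md →
    Evp fun p X0 R0 h0 => ∀ (Ω : Type) [Fintype Ω] (x : Ctx σ cc J M Md p X0 R0 h0 Ω) (oo : Oo) (μ : ℕ), μ ≤ p.B → p.m ≤ μ →
      ∀ j : ℕ, (100 * K) ^ 20 ≤ (2 : ℝ) ^ j → (2 : ℝ) ^ j ≤ 2 * p.B → ∀ (o : Fin 7 → ℝ) (o' : ℕ → ℝ), ∀ d ≤ p.B, ∀ b0 ∈ x.bs,
      (x.win oo b0).av p.Tc (fun k z => if p.k1 ≤ k then sP1 ((x.win oo b0).R k z) ((x.win oo b0).nm k z) p.B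
        ((x.win oo b0).bV p.fp k) ((x.win oo b0).F p.fp k z) ((x.win oo b0).Vs p.fp k z) ((x.win oo b0).Xs p.fp k z) μ o o' d else 0) ≤
      (4 * (x.c.I.ha + 1) * (p.B + 1) * p.L + p.Tc * (p.B + 1)) *
        H420.Hd (p.m * d) (p.m * d + p.m * p.B + 3 * μ) ⌈43 * (8 * (4 * K)) ^ 5⌉₊ +
      2 * H420.cDp (4 * K) * (x.win oo b0).av p.Tc (fun k z =>
        ∑ i ∈ S3.IdP ((x.win oo b0).R k z) ((x.win oo b0).F p.fp k z) p.B (H101.Off.allV ((x.win oo b0).R k z)) ∅,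
          Real.sqrt (S3.exc ((x.win oo b0).R k z).Q ((S3.mt0 ((x.win oo b0).R k z) ((x.win oo b0).F p.fp k z) μ o o').fz i i)
            (2 ^ j) i (((x.win oo b0).R k z).m * ((x.win oo b0).R k z).b1)))

/-- the numerator of (P1) -/
noncomputable def nP1 : NX := fun p μ _ o o' d _ _ w k z =>
  sP1 (w.R k z) (w.nm k z) p.B (w.bV p.fp k) (w.F p.fp k z) (w.Vs p.fp k z) (w.Xs p.fp k z) μ o o' d

/-- the exceptional sums of the deep regime -/
noncomputable def eP1 : NX := fun p μ K' o o' d _ _ w k z =>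
  sP (w.R k z) (w.nm k z) p.B (w.bV p.fp k) (w.F p.fp k z) (H101.Off.allV (w.R k z)) ∅ μ K' o o' d

theorem Hd_le {A A' g g' N0 : ℕ} (hA : A ≤ A') (hg : g ≤ g') : H420.Hd A g N0 ≤ H420.Hd A' g' N0 := by
  unfold H420.Hd
  have l2 : 0 ≤ Real.log 2 := Real.log_nonneg (by norm_num)
  have h1 : (A : ℝ) ≤ A' := by exact_mod_cast hA
  have h2 : (g : ℝ) ≤ g' := by exact_mod_cast hg
  have h3 := mul_le_mul_of_nonneg_right h1 l2
  have h4 := mul_le_mul_of_nonneg_right h2 l2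
  linarith

/-- **row [P1]** -/
theorem rowP1_of (hW : P1Win) : RowP1 := by
  refine row_of_win FT nP1 eP1 (cE := 1) zero_le_one (fun _ _ _ _ _ _ _ _ _ _ _ => sP1_nonneg)
    (fun _ _ _ _ _ _ _ _ _ _ _ => sP_nonneg) ?_ ?_
  · intro p μ K' o o' Ω _ w k z hK'
    rw [one_mul]
    unfold H101.Off.o4
    have h1 := cOff_nonneg (R := w.R k z) (p := w.nm k z) (bS := w.bS p.fp k) (μ := μ) (o := o) hK'
    have h2 := cOffL_nonneg (R := w.R k z) (p := w.nm k z) (μ := μ) (o := o) (o' := o') hK'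
    have h3 : ∑ d ∈ range (p.B + 1), eP1 p μ K' o o' d Ω w k z / tD (w.R k z) (w.nm k z) μ K' d ≤
        ∑ d ∈ range (p.B + 1), (cOffK (w.R k z) (w.nm k z) p.B (w.bV p.fp k) (w.F p.fp k z) (H101.Off.allV (w.R k z)) ∅ μ K' o o' d +
          cOffP (w.R k z) (w.nm k z) p.B (w.bV p.fp k) (w.F p.fp k z) (H101.Off.allV (w.R k z)) ∅ μ K' o o' d) := by
      refine Finset.sum_le_sum fun d _ => ?_
      have h4 := cOffK_nonneg (R := w.R k z) (p := w.nm k z) (B := p.B) (bV := w.bV p.fp k) (F := w.F p.fp k z)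
        (Vs := H101.Off.allV (w.R k z)) (Xs := ∅) (μ := μ) (o := o) (o' := o') (d := d) hK'
      have h5 : eP1 p μ K' o o' d Ω w k z / tD (w.R k z) (w.nm k z) μ K' d =
          cOffP (w.R k z) (w.nm k z) p.B (w.bV p.fp k) (w.F p.fp k z) (H101.Off.allV (w.R k z)) ∅ μ K' o o' d := rfl
      linarith
    linarith
  · intro σ hσ K Cψ cc J M Md hc
    have hK0 := hσ.bs.K10
    set Cn : ℝ := 3 + 2 * (σ.K1 + 1 / 2) with hCn
    have hCn0 : 0 < Cn := by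
      rw [hCn]
      linarith
    have hcD := H420.cDp_nonneg (4 * K)
    refine ⟨2 * H420.cDp (4 * K) * Real.sqrt (2 * Cn), by positivity, ?_⟩
    set N0 : ℕ := ⌈43 * (8 * (4 * K)) ^ 5⌉₊ with hN0
    have E1 := hW σ hσ K Cψ cc J M Md hc
    have E2 := tel_evp σ cc J M Md
      (fun m B _ _ _ L _ => 4 * (B + 1) * L * H420.Hd (m * B) (m * B + m * B + 3 * B) N0)
      (fun m B _ _ _ _ _ => (B + 1) * H420.Hd (m * B) (m * B + m * B + 3 * B) N0)
    refine (Evp.and E1 E2).mono fun p X0 R0 h0 HH => ?_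
    obtain ⟨H1, H2⟩ := HH
    intro Ω _ x oo _ μ hμ hmμ j hj1 hj2 o o' _ d hd b0 hb0
    have H3 := H1 Ω x oo μ hμ hmμ j hj1 hj2 o o' d hd b0 hb0
    have H4 := H2 Ω x
    set w := x.win oo b0 with hw
    have em : (x.c.I.m : ℝ) = p.m := by rw [x.em]
    have hm0 : (0 : ℝ) < p.m := by
      have : 3 ≤ p.m := x.em ▸ x.hm
      exact_mod_cast (show 0 < p.m by omega)
    have hhm : (1 : ℝ) ≤ x.c.I.h / x.c.I.m := by
      have := x.good.hm
      push_cast at this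
      linarith
    -- the macroscopic part
    have h5 : (5 : ℝ) * N0 ≥ 1 := by
      have h1 := hc.hK
      have a1 : (1 : ℝ) ≤ (8 * (4 * K)) ^ 5 := one_le_pow₀ (by linarith)
      have a2 := Nat.le_ceil (43 * (8 * (4 * K)) ^ 5)
      rw [← hN0] at a2
      linarith
    have l5 : 0 ≤ Real.log (5 * (N0 : ℝ)) := Real.log_nonneg h5
    have l2 : 0 ≤ Real.log 2 := Real.log_nonneg (by norm_num)
    have hH0 : ∀ A g : ℕ, 0 ≤ H420.Hd A g N0 := fun A g => by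
      unfold H420.Hd
      positivity
    have hHd : H420.Hd (p.m * d) (p.m * d + p.m * p.B + 3 * μ) N0 ≤
        H420.Hd (p.m * p.B) (p.m * p.B + p.m * p.B + 3 * p.B) N0 := by
      have := Nat.mul_le_mul_left p.m hd
      exact Hd_le this (by omega)
    have hha : (x.c.I.ha : ℝ) ≤ x.c.I.h / p.m := by
      rw [le_div_iff₀ hm0]
      have := x.good.hah
      rw [x.em] at this
      have h7 : ((p.m * x.c.I.ha : ℕ) : ℝ) ≤ x.c.I.h := by exact_mod_cast this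
      push_cast at h7
      linarith
    have hmac : (4 * ((x.c.I.ha : ℝ) + 1) * (p.B + 1) * p.L + p.Tc * (p.B + 1)) *
        H420.Hd (p.m * d) (p.m * d + p.m * p.B + 3 * μ) N0 ≤ p.Tc * x.c.I.h / ((p.B : ℝ) + 1) ^ 5 := by
      refine le_trans ?_ H4
      have hz := hH0 (p.m * p.B) (p.m * p.B + p.m * p.B + 3 * p.B)
      have h8 : (4 * ((x.c.I.ha : ℝ) + 1) * (p.B + 1) * p.L + p.Tc * (p.B + 1)) *
          H420.Hd (p.m * d) (p.m * d + p.m * p.B + 3 * μ) N0 ≤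
          (4 * ((x.c.I.h : ℝ) / p.m + 1) * (p.B + 1) * p.L + p.Tc * (p.B + 1)) *
          H420.Hd (p.m * p.B) (p.m * p.B + p.m * p.B + 3 * p.B) N0 := by
        have h9 := hH0 (p.m * d) (p.m * d + p.m * p.B + 3 * μ)
        gcongr
      refine h8.trans (le_of_eq ?_)
      ring
    -- the near part
    have hnear : w.av p.Tc (fun k z =>
        ∑ i ∈ S3.IdP (w.R k z) (w.F p.fp k z) p.B (H101.Off.allV (w.R k z)) ∅,
          Real.sqrt (S3.exc (w.R k z).Q ((S3.mt0 (w.R k z) (w.F p.fp k z) μ o o').fz i i)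
            (2 ^ j) i ((w.R k z).m * (w.R k z).b1))) ≤
        Real.sqrt (2 * Cn) * Real.sqrt (p.Tc * (x.c.I.h / p.m) *
          w.av (2 * p.Tc) (eP1 p μ (2 ^ j) o o' d Ω w)) := by
      have h8 := av_sqrt w (T := 2 * p.Tc)
        (fun k z => S3.IdP (w.R k z) (w.F p.fp k z) p.B (H101.Off.allV (w.R k z)) ∅)
        (fun k z i => S3.exc (w.R k z).Q ((S3.mt0 (w.R k z) (w.F p.fp k z) μ o o').fz i i)
            (2 ^ j) i ((w.R k z).m * (w.R k z).b1))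
        (fun k z => eP1 p μ (2 ^ j) o o' d Ω w k z) (N := Cn * (x.c.I.h / p.m)) (by positivity)
        (fun k z i _ => exc_nonneg _ _ _ _ _) ?_ ?_ (fun k z => sP_nonneg)
      · refine (Ctx.av_range w (fun k z => Finset.sum_nonneg fun i _ => Real.sqrt_nonneg _) (by omega : p.Tc ≤ 2 * p.Tc)).trans
          (h8.trans (le_of_eq ?_))
        rw [← Real.sqrt_mul (by positivity)]
        congr 1
        push_cast
        ring
      · intro k _ z _ _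
        have h9 : (S3.IdP (w.R k z) (w.F p.fp k z) p.B (H101.Off.allV (w.R k z)) ∅).card ≤ (w.R k z).n := by
          refine (Finset.card_le_card (Finset.filter_subset _ _)).trans ?_
          rw [Nat.card_Icc]
          omega
        have h10 := n_up w (show 2 ≤ 4 by norm_num) hhm k z
        have e : w.c = x.c := rfl
        have e' : w.K1 = σ.K1 + 1 / 2 := rfl
        rw [e, e', em] at h10
        have h11 : ((S3.IdP (w.R k z) (w.F p.fp k z) p.B (H101.Off.allV (w.R k z)) ∅).card : ℝ) ≤ (w.R k z).n := by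
          exact_mod_cast h9
        have h12 : (0 : ℝ) ≤ (w.nm k z).J := Nat.cast_nonneg _
        have h13 : ((w.R k z).n : ℝ) + (w.nm k z).J + 1 ≤ Cn * (x.c.I.h / p.m) := h10
        show ((S3.IdP (w.R k z) (w.F p.fp k z) p.B (H101.Off.allV (w.R k z)) ∅).card : ℝ) ≤ Cn * (x.c.I.h / p.m)
        linarith
      · intro k _ z _ _
        refine Finset.sum_le_sum fun i _ => ?_
        have h9 := exc_nonneg (w.R k z).Q ((S3.mt0 (w.R k z) (w.F p.fp k z) μ o o').fz i i) (2 ^ j) i (w.bV p.fp k)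
        have h10 : 0 ≤ ∑ i' ∈ S3.At' (w.R k z) (w.nm k z) p.B d i,
            S3.exc (w.R k z).Q ((S3.mt0 (w.R k z) (w.F p.fp k z) μ o o').fz i i) (2 ^ j) i' ((w.R k z).m * (w.R k z).b1) :=
          Finset.sum_nonneg fun _ _ => exc_nonneg _ _ _ _ _
        linarith
    refine H3.trans (add_le_add hmac ?_)
    have h13 : (0 : ℝ) ≤ Real.sqrt (p.Tc * (x.c.I.h / p.m) * w.av (2 * p.Tc) (eP1 p μ (2 ^ j) o o' d Ω w)) := Real.sqrt_nonneg _
    have h14 : (1 : ℝ) ≤ p.m + μ + 1 := by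
      have : (0 : ℝ) ≤ μ := Nat.cast_nonneg _
      linarith
    calc 2 * H420.cDp (4 * K) * w.av p.Tc (fun k z =>
        ∑ i ∈ S3.IdP (w.R k z) (w.F p.fp k z) p.B (H101.Off.allV (w.R k z)) ∅,
          Real.sqrt (S3.exc (w.R k z).Q ((S3.mt0 (w.R k z) (w.F p.fp k z) μ o o').fz i i)
            (2 ^ j) i ((w.R k z).m * (w.R k z).b1))) ≤
        2 * H420.cDp (4 * K) * (Real.sqrt (2 * Cn) * Real.sqrt (p.Tc * (x.c.I.h / p.m) *
          w.av (2 * p.Tc) (eP1 p μ (2 ^ j) o o' d Ω w))) := mul_le_mul_of_nonneg_left hnear (by positivity)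
      _ = 2 * H420.cDp (4 * K) * Real.sqrt (2 * Cn) * 1 * Real.sqrt (p.Tc * (x.c.I.h / p.m) *
          w.av (2 * p.Tc) (eP1 p μ (2 ^ j) o o' d Ω w)) := by ring
      _ ≤ 2 * H420.cDp (4 * K) * Real.sqrt (2 * Cn) * (p.m + μ + 1) * Real.sqrt (p.Tc * (x.c.I.h / p.m) *
          w.av (2 * p.Tc) (eP1 p μ (2 ^ j) o o' d Ω w)) := by gcongr

end Vale.Agent.P106.U.H404.FinR
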