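import Vale.Agent.P106.U.H404.P1Last
import Vale.Agent.P106.U.H420.P1Win

/-!
# P106 / U / H404 : row [P1] (helper404)

* **`p1Win : P1Win`** (helper420's `p1_win` over the frame), **`rowP1 : RowP1`**.
-/

set_option autoImplicit false

namespace Vale.Agent.P106.U.H404.FinR

open Finset Vale.Agent.P127 Vale.Agent.P127.Stk Vale.Agent.P127.U Vale.Agent.P106.W
open Vale.Agent.P127.U.CellD (q2 q2_pos q2_le q2_add)
open Vale.Agent.P106.U Vale.Agent.P106.U.H449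
open Vale.Agent.P106.U.LinkR Vale.Agent.P106.U.InsL Vale.Agent.P106.U.InpC Vale.Agent.P106.U.StripL
open Vale.Agent.P106.U.H565 Vale.Agent.P106.U.H823.NumW
open Vale.Agent.P106.U.S3 (Run Pf)
open Vale.Agent.P106.U.H712.Fam (Win Vl Pl)
open Vale.Agent.P106.U.H61.Ext2 Vale.Agent.P106.U.H61.PS

/-- **helper420's theorem over the frame** -/
theorem p1Win : P1Win := by
  intro σ _ K Cψ cc J M Md hc
  have hK := hc.hK
  refine ⟨8, fun m hm => ⟨⌈(100 * K) ^ 20⌉₊, fun B hB => ⟨1, fun g hg => ⟨2, fun D0 hD s L hs hL hBL => ⟨0, fun k1 _ =>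
    ⟨0, fun Tc _ => ⟨100 * (m * B), 0, 0, fun X0 R0 h0 hX _ _ => ?_⟩⟩⟩⟩⟩⟩⟩
  intro Ω _ x oo μ hμ _ j hj _ o o' d _ b0 hb0
  have em : x.c.I.m = m := x.em
  have hb : 8 * B < b0 := (x.mem_bs.1 hb0).2
  have hn : H420.Nr (H420.PW.c1w (x.win oo b0)) K (x.win oo b0).b0 (x.win oo b0).s L B μ := by
    refine ⟨by linarith, ?_, ?_, ?_, hμ, ?_, ?_, ?_⟩
    · exact (Nat.le_ceil _).trans (by exact_mod_cast hB)
    · show 100 * (x.c.I.m * B) ≤ x.c.I.rs
      rw [em]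
      exact hX.trans x.hX0
    · show 1 ≤ x.c.I.m
      rw [em]
      omega
    · show B ≤ x.c.I.B
      rw [x.eB]
    · show 8 * B ≤ x.c.I.m * b0
      rw [em]
      have : 8 * B < b0 := hb
      nlinarith
    · show 8 * μ ≤ x.c.I.m * (L * s)
      rw [em]
      have h1 : μ ≤ L * s := hμ.trans hBL
      nlinarith
  have hK' : 40 * (8 * (4 * K)) ^ 2 ≤ (2 : ℝ) ^ j := by
    refine le_trans ?_ hj
    have h1 : (1 : ℝ) ≤ 100 * K := by linarith
    have h2 : (100 * K) ^ 4 ≤ (100 * K) ^ 20 := pow_le_pow_right₀ h1 (by norm_num)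
    refine le_trans ?_ h2
    have h3 : 40 * (8 * (4 * K)) ^ 2 ≤ (100 * K) ^ 2 * 10000 := by nlinarith [sq_nonneg K]
    have h4 : (10000 : ℝ) ≤ (100 * K) ^ 2 := by nlinarith
    have h5 : (0 : ℝ) ≤ (100 * K) ^ 2 := sq_nonneg _
    have h6 := mul_le_mul_of_nonneg_left h4 h5
    calc 40 * (8 * (4 * K)) ^ 2 ≤ (100 * K) ^ 2 * 10000 := h3
      _ ≤ (100 * K) ^ 2 * (100 * K) ^ 2 := h6
      _ = (100 * K) ^ 4 := by ring
  have key := H420.PW.p1_win (w := x.win oo b0) hK (x.ho oo b0)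
    (Par.fp ⟨m, B, g, D0, s, L, k1, Tc⟩) (β := L) (μ := μ) rfl hg hD hn hK' d Tc o o'
  have e : (x.win oo b0).c.I.m = m := em
  rw [e] at key
  exact key

/-- **row [P1]** -/
theorem rowP1 : RowP1 := rowP1_of p1Win

end Vale.Agent.P106.U.H404.FinR
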