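import Vale.Agent.P106.U.H565.RunF
import Vale.Agent.P106.U.H449.Start

/-!
# P106 / U / H404 : the start data of the concrete run (row [ST] of helper565; helper404)

`st` : from a system in normal form, the data `C0` with `C0.St`; all the facts of the start hold at EVERY point.
-/

set_option autoImplicit false

namespace Vale.Agent.P106.U.H404

open Finset Vale.Agent.P127 Vale.Agent.P127.Stk Vale.Agent.P127.U Vale.Agent.P106.W
open Vale.Agent.P106.K (Ry RyOk bl Bin)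
open Vale.Agent.P127.U.CellD (q2 rd)
open Vale.Agent.P106.U Vale.Agent.P106.U.H449 Vale.Agent.P106.U.StripL Vale.Agent.P106.U.H565

/-- **[ST]** : the start data of the concrete run -/
theorem st {Ω : Type} [Fintype Ω] {K0 K1 lam N k β d : ℝ} {Rm0 L h q r0 : ℕ} {P : Law Ω} {l : Ω → Ry} {t : Ω → ℝ}
    {W : Ω → Cbx} {S : Cbx} (H : H61.Nrm K0 K1 Rm0 lam N k β d P l t L h q r0 W S) (hK0 : 0 ≤ K0)
    (I : H523.Nums.Inp) (hh : I.h = h) (hq : I.q = q) (hm : 6 ≤ I.m) (hR1 : 2 * (I.m * I.B) + 3 ≤ Rm0) (hR6 : 6 ≤ Rm0)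
    (hRq : Rm0 ≤ q) {c0 : ℕ} (hc0 : 8 * K0 ≤ 2 ^ c0) (hr : I.r0 + c0 ≤ r0)
    (h3 : 3888 * q2 (I.m * (I.kb - 2)) ≤ 1) {Md : ℕ} (hMd : I.M + 2 ≤ Md) (thr : ℝ) :
    ∃ c : C0 Ω, c.P = P ∧ c.L = L ∧ c.I = I ∧ c.Md = Md ∧ c.thr = thr ∧ c.St (Rm0 - 1) ∧
      (∀ ω, 0 < P.w ω → c.l ω = l ω ∧ c.t ω = t ω ∧ c.W ω = W ω) ∧
      (∀ ω, RyOk (c.l ω) ∧ 0 ≤ c.t ω ∧ c.t ω < 1 ∧
        H465.FWn.FWok c.θ c.I.h c.I.q (Rm0 - 1) (c.W ω) (c.l ω) (c.t ω) ∧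
        H428.W0 (1 / 1000) c.I.h c.I.q (c.W ω) (c.l ω) (c.t ω)) ∧
      H61.Nrm K0 K1 Rm0 lam N k β d c.P c.l c.t c.L c.I.h c.I.q r0 c.W S := by
  subst hh
  subst hq
  have hp0 : (0 : ℝ) < 2 ^ r0 := by positivity
  have hkb : I.m * I.kb ≤ I.r0 := Nat.mul_div_le _ _
  -- the start slab has some digits
  have hkb1 : 1 ≤ I.m * I.kb := by
    rcases Nat.eq_zero_or_pos I.kb with h0 | h0
    · rw [h0] at h3
      unfold q2 at h3
      norm_num at h3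
    · exact Nat.mul_pos (by omega) h0
  have hmul : ∀ R : ℕ, R ≤ I.r0 → 8 * K0 * 2 ^ R ≤ 2 ^ r0 := by
    intro R hR
    calc 8 * K0 * 2 ^ R ≤ 2 ^ c0 * 2 ^ R := mul_le_mul_of_nonneg_right hc0 (by positivity)
      _ = 2 ^ (c0 + R) := by rw [← pow_add]
      _ ≤ 2 ^ r0 := pow_le_pow_right₀ (by norm_num) (by omega)
  have hK : K0 * (1 / 2 : ℝ) ^ r0 ≤ 1 / 16 := by
    have h1 := hmul 1 (by omega)
    rw [pow_one] at h1
    have h2 : K0 * (1 / 2 : ℝ) ^ r0 = (K0 * 16) / 2 ^ r0 / 16 := by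
      rw [div_pow, one_pow]
      field_simp
    rw [h2]
    have h4 : (K0 * 16) / 2 ^ r0 ≤ 1 := by
      rw [div_le_one hp0]
      linarith
    linarith
  obtain ⟨r, θ, σ, r1, r2, hσ, HN, hall, hin, hal, hfew⟩ := Start.start H hR6 hRq hK0 hK
  have hin' := hin (I.m * I.kb) (by
    have h1 := hmul (I.m * I.kb) hkb
    have h2 : (0 : ℝ) < 2 ^ (I.m * I.kb) := by positivity
    have h4 : K0 * 2 ^ (I.m * I.kb) ≤ 8 * K0 * 2 ^ (I.m * I.kb) := by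
      refine mul_le_mul_of_nonneg_right ?_ h2.le
      linarith
    exact h4.trans h1)
  refine ⟨⟨P, fun ω => l (r ω), fun ω => t (r ω), fun ω => W (r ω), L, I, θ, Start.dS σ S (I.m * I.kb), Md, thr⟩,
    rfl, rfl, rfl, rfl, rfl, ?_, ?_, ?_, HN⟩
  · exact {
      m6 := hm
      sys := fun ω _ => ⟨(hall ω).1, (hall ω).2.1, (hall ω).2.2.1.le⟩
      fw := fun ω _ => (hall ω).2.2.2.1
      μR := by
        show 2 * (I.m * I.B) + 2 ≤ Rm0 - 1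
        omega
      s0 := rfl
      a0 := rfl
      k0 := rfl
      al0 := (hal _).trans (by norm_num)
      in0 := hin'
      NS := hfew (I.m * I.kb) P (hmul _ hkb) fun _ hω => hω
      Md2 := hMd
      r0 := h3 }
  · intro ω hω
    exact ⟨congrArg l (r2 ω hω), congrArg t (r2 ω hω), congrArg W (r2 ω hω)⟩
  · intro ω
    exact ⟨(hall ω).1, (hall ω).2.1, (hall ω).2.2.1, (hall ω).2.2.2.1, (hall ω).2.2.2.2.1⟩

end Vale.Agent.P106.U.H404
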